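import Vale.Agent.P100.Sector.Rep

/-!
P100, from the unweighted system to the weighted one: the interior gradient bound.
-/

open MeasureTheory Metric Set Filter Topology
open scoped ENNReal

namespace Vale.Agent.P100.Doubling

open Vale.Agent.P100.Sys
open Vale.Agent.P100.Sector
open Vale.Agent.P100.Cmp (continuous_lap contDiff_pd cut_deriv_bounds)

variable {n : ℕ}

theorem pd_comp_sub (F : EuclideanSpace ℝ (Fin n) → ℝ) (x y : EuclideanSpace ℝ (Fin n)) (i : Fin n) :
    pd i (fun z => F (z - x)) y = pd i F (y - x) := by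
  show fderiv ℝ (fun z => F (z - x)) y _ = _
  rw [fderiv_comp_sub]
  rfl

theorem lap_comp_sub (F : EuclideanSpace ℝ (Fin n) → ℝ) (x y : EuclideanSpace ℝ (Fin n)) :
    lap (fun z => F (z - x)) y = lap F (y - x) := by
  simp only [lap]
  refine Finset.sum_congr rfl fun i _ => ?_
  rw [show pd i (fun z => F (z - x)) = fun z => pd i F (z - x) from
    funext fun z => pd_comp_sub F x z i, pd_comp_sub]

/-- The gradient at the centre of a ball, by the size of the function and of its Laplacian. -/
theorem exists_local_grad (hn : 3 ≤ n) :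
    ∃ C : ℝ, 0 < C ∧ ∀ (w : EuclideanSpace ℝ (Fin n) → ℝ) (x : EuclideanSpace ℝ (Fin n)) (D D' : ℝ),
      ContDiffOn ℝ 2 w (ball x 4) → (∀ y ∈ closedBall x 2, |w y| ≤ D) →
      (∀ y ∈ closedBall x 2, |lap w y| ≤ D') → ∀ j, |pd j w x| ≤ C * (D + D') := by
  have hn3 : (3 : ℝ) ≤ n := by exact_mod_cast hn
  have hn2 : (0 : ℝ) ≤ (n : ℝ) - 2 := by linarith
  obtain ⟨B, hB, hbd⟩ := cut_deriv_bounds n
  obtain ⟨C₁, hC₁, hker⟩ := exists_ball_kernel (n := n) (by omega) (a := (n : ℝ) - 1) (by linarith)
  set E₀ : ℝ := (2 * n * (((n : ℝ) - 2) * ((n : ℝ) + 1)) + ((n : ℝ) - 2)) * B * 8 ^ (n + 1) *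
    (1 : ℝ)⁻¹ ^ (n + 1) with hE₀
  have hE0 : 0 ≤ E₀ := by positivity
  have hM := kerMass_pos hn
  have hV := ballVol_pos n
  set K₁ : ℝ := ((n : ℝ) - 2) * (C₁ * 2 ^ ((n : ℝ) - ((n : ℝ) - 1))) with hK₁
  have hK₁0 : 0 ≤ K₁ := mul_nonneg hn2 (by positivity)
  refine ⟨(E₀ * (2 ^ n * ballVol n) + K₁ + 1) / kerMass n, by positivity,
    fun w x D D' hw hD hD' j => ?_⟩
  have hD0 : 0 ≤ D := (abs_nonneg _).trans (hD x (mem_closedBall_self (by norm_num)))
  have hD0' : 0 ≤ D' := (abs_nonneg _).trans (hD' x (mem_closedBall_self (by norm_num)))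
  set η : EuclideanSpace ℝ (Fin n) → ℝ := fun y => cut n 1 (y - x) with hη
  have hηd : ContDiff ℝ 2 η := contDiff_cut.comp (contDiff_id.sub contDiff_const)
  have hη0 : ∀ y, 0 ≤ η y ∧ η y ≤ 1 := fun y => ⟨cut_nonneg, cut_le_one⟩
  have hηz : ∀ y, 2 < ‖y - x‖ → η y = 0 := fun y hy => cut_eq_zero one_pos (by linarith)
  have hηsupp : tsupport η ⊆ closedBall x 2 := closure_minimal (fun y hy => by
    rw [mem_closedBall, dist_eq_norm]
    exact not_lt.1 fun h => hy (hηz y h)) isClosed_closedBall
  have hηc : HasCompactSupport η :=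
    (isCompact_closedBall x 2).of_isClosed_subset (isClosed_tsupport η) hηsupp
  have hηΩ : tsupport η ⊆ ball x 4 := hηsupp.trans (closedBall_subset_ball (by norm_num))
  have hη1 : ∀ y, ‖y - x‖ < 1 → η y = 1 := fun y hy => cut_eq_one one_pos hy.le
  have hηev : ∀ y, ‖y - x‖ < 1 → η =ᶠ[𝓝 y] fun _ => 1 := fun y hy =>
    ((isOpen_lt (continuous_id.sub continuous_const).norm continuous_const).eventually_mem hy).mono
      fun z hz => hη1 z hz
  have hfar : ∀ y, ‖y - x‖ < 1 / 8 → (∀ i, pd i η y = 0) ∧ lap η y = 0 := fun y hy => by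
    have hy1 : ‖y - x‖ < 1 := by linarith
    have hz : ∀ i, ∀ z, ‖z - x‖ < 1 → pd i η z = 0 := fun i z hz => by
      rw [pd_congr (hηev z hz) i]
      simp [pd]
    refine ⟨fun i => hz i y hy1, Finset.sum_eq_zero fun i _ => ?_⟩
    rw [pd_congr (((isOpen_lt (continuous_id.sub continuous_const).norm
      continuous_const).eventually_mem hy1).mono fun z h' => hz i z h') i]
    simp [pd]
  set φ : EuclideanSpace ℝ (Fin n) → ℝ := fun z => η z * w z with hφ
  have hφsub : tsupport φ ⊆ tsupport η := closure_mono fun z hz => left_ne_zero_of_mul hz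
  have hφd : ContDiff ℝ 2 φ := contDiff_of_tsupport_subset isOpen_ball
    (hηd.contDiffOn.mul hw) (hφsub.trans hηΩ)
  have hφc : HasCompactSupport φ := hηc.mul_right
  have hd : ContDiff ℝ 1 (pd j φ) := contDiff_pd hφd j
  obtain ⟨Dφ, hDφ⟩ := (hasCompactSupport_pd hφc j).exists_bound_of_continuous hd.continuous
  have hl := tendsto_lap_ker x hd.continuous fun y => (Real.norm_eq_abs _).symm.le.trans (hDφ y)
  have hev : φ =ᶠ[𝓝 x] w := (hηev x (by simp)).mono fun z hz => by
    show η z * w z = w z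
    rw [hz, one_mul]
  rw [pd_congr hev j] at hl
  have hbound : ∀ t : ℝ, 0 < t → |∫ y, pd j φ y * -lap (ker (t ^ 2) x) y| ≤
      (E₀ * (2 ^ n * ballVol n) + K₁ + 1) * (D + D') := by
    intro t ht
    have he : 0 < t ^ 2 := pow_pos ht 2
    set G := pd j (ker (t ^ 2) x) with hG
    have hGd : ContDiff ℝ 2 G :=
      ((contDiff_ker (k := 3) he x).fderiv_right (m := 2) (by norm_num)).clm_apply contDiff_const
    have e : ∫ y, pd j φ y * -lap (ker (t ^ 2) x) y = ∫ y, G y * lap φ y := by
      rw [hG, integral_pd_ker_lap he x hφd hφc j, ← integral_neg]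
      exact integral_congr_ae (Eventually.of_forall fun y => by ring)
    rw [e, integral_lap_cutoff hGd hηd hηc isOpen_ball hηΩ hw]
    have p1 : |∫ y, G y * (η y * lap w y)| ≤ K₁ * D' := by
      rw [← ENNReal.ofReal_le_ofReal_iff (by positivity), ← Real.enorm_eq_ofReal_abs]
      refine (enorm_integral_le_lintegral_enorm _).trans ?_
      have hx : ∀ᵐ y : EuclideanSpace ℝ (Fin n), y ≠ x :=
        compl_mem_ae_iff.2 (volume_singleton_zero (by omega) x)
      have hle : ∫⁻ y, ‖G y * (η y * lap w y)‖ₑ ≤ ∫⁻ y, (closedBall x 2).indicator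
          (fun y => ENNReal.ofReal (((n : ℝ) - 2) * D') *
            ENNReal.ofReal (‖y - x‖ ^ (-((n : ℝ) - 1)))) y := by
        refine lintegral_mono_ae ?_
        filter_upwards [hx] with y hy
        by_cases hy2 : y ∈ closedBall x 2
        · rw [indicator_of_mem hy2, Real.enorm_eq_ofReal_abs, ← ENNReal.ofReal_mul (by positivity)]
          refine ENNReal.ofReal_le_ofReal ?_
          rw [abs_mul, abs_mul, abs_of_nonneg (hη0 y).1]
          refine (mul_le_mul (abs_pd_ker_le hn he hy j) ((mul_le_of_le_one_left (abs_nonneg _)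
            (hη0 y).2).trans (hD' y hy2)) (mul_nonneg (hη0 y).1 (abs_nonneg _))
            (mul_nonneg hn2 (Real.rpow_nonneg (norm_nonneg _) _))).trans_eq ?_
          ring
        · have : η y = 0 := image_eq_zero_of_notMem_tsupport fun h => hy2 (hηsupp h)
          simp [this]
      refine hle.trans ?_
      rw [lintegral_indicator measurableSet_closedBall,
        lintegral_const_mul' _ _ ENNReal.ofReal_ne_top]
      refine (mul_le_mul' le_rfl (hker x 2 two_pos)).trans_eq ?_
      rw [← ENNReal.ofReal_mul (by positivity), hK₁]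
      congr 1
      ring
    have p2 : |∫ y, w y * (2 * ∑ i, pd i G y * pd i η y + G y * lap η y)| ≤
        D * E₀ * (2 ^ n * ballVol n) := by
      rw [← setIntegral_eq_integral_of_forall_compl_eq_zero (s := closedBall x 2) fun y hy => ?_]
      swap
      · have hy' : y ∉ tsupport η := fun h => hy (hηsupp h)
        have hl0 : lap η y = 0 := Finset.sum_eq_zero fun i _ => pd_eq_zero_of_notMem i fun h =>
          hy' (support_pd_subset η i h)
        simp [hl0, pd_eq_zero_of_notMem _ hy']
      rw [← Real.norm_eq_abs]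
      refine (norm_setIntegral_le_of_norm_le_const (C := D * E₀) measure_closedBall_lt_top
        fun y hy => ?_).trans_eq ?_
      · rw [Real.norm_eq_abs, abs_mul]
        refine mul_le_mul (hD y hy) ?_ (abs_nonneg _) hD0
        have hB1 := hbd 1 one_pos (y - x)
        refine cutoff_terms_le (h := 1) one_pos le_rfl (s := (n : ℝ) - 1) (x := x) (by linarith)
          (by linarith) hn2 (by positivity) hB.le (hfar y) (fun hy => abs_pd_ker_le hn he hy j)
          (fun hy i => ?_) (fun i => ?_) ?_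
        · rw [show (n : ℝ) - 1 + 1 = (n : ℝ) by ring]
          exact abs_pd_pd_ker_le hn he hy i j
        · rw [hη, pd_comp_sub]
          exact hB1.1 i
        · rw [hη, lap_comp_sub]
          exact hB1.2
      · rw [Measure.addHaar_real_closedBall' volume x (by norm_num), finrank_euclideanSpace_fin]
        rfl
    have hVn : 0 ≤ 2 ^ n * ballVol n := by positivity
    have := mul_nonneg (mul_nonneg hE0 hVn) hD0'
    have := mul_nonneg hK₁0 hD0
    refine (abs_sub _ _).trans ?_
    linarith
  have h := le_of_tendsto hl.abs (eventually_mem_nhdsWithin.mono fun t ht => hbound t ht)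
  rw [abs_mul, abs_of_pos hM] at h
  rw [div_mul_eq_mul_div, le_div_iff₀ hM]
  linarith

end Vale.Agent.P100.Doubling
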