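import Vale.Agent.P100.Doubling.Conv

/-!
P100, from the unweighted system to the weighted one: blow-up sequences have subsequences converging
to a nonnegative continuously differentiable pair whose Laplacians converge, too.
-/

open MeasureTheory Metric Set Filter Topology

namespace Vale.Agent.P100.Doubling

open Vale.Agent.P100.Sys

variable {n : ℕ} {p q a b : ℝ} {U V ca cb : ℕ → EuclideanSpace ℝ (Fin n) → ℝ}
  {Uoo Voo : EuclideanSpace ℝ (Fin n) → ℝ}

/-- A sequence of bounded local solutions on growing balls with nearly constant coefficients. -/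
structure Blowup (n : ℕ) (p q a b : ℝ) (U V ca cb : ℕ → EuclideanSpace ℝ (Fin n) → ℝ) : Prop where
  smooth : ∀ N : ℕ, ∀ᶠ k in atTop,
    ContDiffOn ℝ 2 (U k) (ball 0 N) ∧ ContDiffOn ℝ 2 (V k) (ball 0 N)
  bound : ∃ D : ℝ, ∀ N : ℕ, ∀ᶠ k in atTop, ∀ y ∈ closedBall (0 : EuclideanSpace ℝ (Fin n)) N,
    (0 ≤ U k y ∧ U k y ≤ D) ∧ (0 ≤ V k y ∧ V k y ≤ D)
  eqU : ∀ N : ℕ, ∀ᶠ k in atTop, ∀ y ∈ closedBall (0 : EuclideanSpace ℝ (Fin n)) N,
    lap (U k) y = -(ca k y * V k y ^ p)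
  eqV : ∀ N : ℕ, ∀ᶠ k in atTop, ∀ y ∈ closedBall (0 : EuclideanSpace ℝ (Fin n)) N,
    lap (V k) y = -(cb k y * U k y ^ q)
  coefA : ∀ N : ℕ, TendstoUniformlyOn ca (fun _ => a) atTop (closedBall 0 N)
  coefB : ∀ N : ℕ, TendstoUniformlyOn cb (fun _ => b) atTop (closedBall 0 N)

theorem Blowup.swap (h : Blowup n p q a b U V ca cb) : Blowup n q p b a V U cb ca :=
  ⟨fun N => (h.smooth N).mono fun _ hk => ⟨hk.2, hk.1⟩,
    let ⟨D, hD⟩ := h.bound
    ⟨D, fun N => (hD N).mono fun _ hk y hy => ⟨(hk y hy).2, (hk y hy).1⟩⟩,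
    h.eqV, h.eqU, h.coefB, h.coefA⟩

theorem Blowup.comp (h : Blowup n p q a b U V ca cb) {φ : ℕ → ℕ} (hφ : StrictMono φ) :
    Blowup n p q a b (fun k => U (φ k)) (fun k => V (φ k)) (fun k => ca (φ k))
      (fun k => cb (φ k)) := by
  have ht := hφ.tendsto_atTop
  obtain ⟨D, hD⟩ := h.bound
  refine ⟨fun N => ht.eventually (h.smooth N), ⟨D, fun N => ht.eventually (hD N)⟩,
    fun N => ht.eventually (h.eqU N), fun N => ht.eventually (h.eqV N), fun N => ?_, fun N => ?_⟩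
  · rw [Metric.tendstoUniformlyOn_iff]
    exact fun ε hε => ht.eventually (Metric.tendstoUniformlyOn_iff.1 (h.coefA N) ε hε)
  · rw [Metric.tendstoUniformlyOn_iff]
    exact fun ε hε => ht.eventually (Metric.tendstoUniformlyOn_iff.1 (h.coefB N) ε hε)

/-- Blow-up sequences are eventually uniformly Lipschitz on each ball. -/
theorem Blowup.lipschitz (hn : 3 ≤ n) (hp : 0 < p) (h : Blowup n p q a b U V ca cb) (N : ℕ) :
    ∃ L : ℝ, ∀ᶠ k in atTop, ∀ x ∈ closedBall (0 : EuclideanSpace ℝ (Fin n)) N,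
      |U k x| ≤ L ∧ ∀ y ∈ closedBall (0 : EuclideanSpace ℝ (Fin n)) N,
        |U k x - U k y| ≤ L * ‖x - y‖ := by
  obtain ⟨D, hD⟩ := h.bound
  obtain ⟨C, hC, hgrad⟩ := exists_local_grad hn
  obtain ⟨P, hP, hnorm⟩ := exists_norm_fderiv_le n
  set K : ℝ := C * (|D| + (|a| + 1) * |D| ^ p) with hK
  refine ⟨max |D| (P * K), ?_⟩
  filter_upwards [h.smooth (N + 5), hD (N + 5), h.eqU (N + 5),
    Metric.tendstoUniformlyOn_iff.1 (h.coefA (N + 5)) 1 one_pos] with k hs hb he hc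
  have hN : closedBall (0 : EuclideanSpace ℝ (Fin n)) N ⊆ closedBall 0 ((N + 5 : ℕ) : ℝ) :=
    closedBall_subset_closedBall (by push_cast; linarith)
  have hpd : ∀ x ∈ closedBall (0 : EuclideanSpace ℝ (Fin n)) N, ∀ j, |pd j (U k) x| ≤ K :=
    fun x hx j => hgrad (U k) x |D| ((|a| + 1) * |D| ^ p) (hs.1.mono (ball_four_subset hx))
      (fun y hy => by
        obtain ⟨⟨h0, h1⟩, -⟩ := hb y (closedBall_two_subset hx hy)
        rw [abs_of_nonneg h0]
        exact h1.trans (le_abs_self D))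
      (fun y hy => by
        have hy' := closedBall_two_subset hx hy
        obtain ⟨-, h0, h1⟩ := hb y hy'
        have hc' := hc y hy'
        rw [Real.dist_eq] at hc'
        rw [he y hy', abs_neg, abs_mul, abs_of_nonneg (Real.rpow_nonneg h0 _)]
        refine mul_le_mul ?_ (Real.rpow_le_rpow h0 (h1.trans (le_abs_self D)) hp.le)
          (Real.rpow_nonneg h0 _) (by positivity)
        linarith [abs_sub_abs_le_abs_sub (ca k y) a, abs_sub_comm (ca k y) a]) j
  intro x hx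
  refine ⟨?_, fun y hy => ?_⟩
  · obtain ⟨⟨h0, h1⟩, -⟩ := hb x (hN hx)
    rw [abs_of_nonneg h0]
    exact (h1.trans (le_abs_self D)).trans (le_max_left _ _)
  · have hdiff : ∀ z ∈ closedBall (0 : EuclideanSpace ℝ (Fin n)) N, DifferentiableAt ℝ (U k) z :=
      fun z hz => (hs.1.contDiffAt (isOpen_ball.mem_nhds
        (closedBall_subset_ball (by push_cast; linarith) hz))).differentiableAt (by norm_num)
    have := (convex_closedBall (0 : EuclideanSpace ℝ (Fin n)) (N : ℝ)).norm_image_sub_le_of_norm_fderiv_le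
      hdiff (fun z hz => hnorm (U k) z K (hpd z hz) (by positivity)) hy hx
    rw [Real.norm_eq_abs] at this
    exact this.trans (mul_le_mul_of_nonneg_right (le_max_right _ _) (norm_nonneg _))

/-- A blow-up sequence converging locally uniformly. -/
structure Lim (n : ℕ) (p q a b : ℝ) (U V ca cb : ℕ → EuclideanSpace ℝ (Fin n) → ℝ)
    (Uoo Voo : EuclideanSpace ℝ (Fin n) → ℝ) : Prop where
  blow : Blowup n p q a b U V ca cb
  convU : ∀ N : ℕ, TendstoUniformlyOn U Uoo atTop (closedBall 0 N)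
  convV : ∀ N : ℕ, TendstoUniformlyOn V Voo atTop (closedBall 0 N)
  contU : Continuous Uoo
  contV : Continuous Voo

theorem Lim.swap (h : Lim n p q a b U V ca cb Uoo Voo) : Lim n q p b a V U cb ca Voo Uoo :=
  ⟨h.blow.swap, h.convV, h.convU, h.contV, h.contU⟩

/-- Every blow-up sequence has a converging subsequence. -/
theorem Blowup.exists_lim (hn : 3 ≤ n) (hp : 0 < p) (hq : 0 < q)
    (h : Blowup n p q a b U V ca cb) :
    ∃ (φ : ℕ → ℕ) (Uoo Voo : EuclideanSpace ℝ (Fin n) → ℝ), StrictMono φ ∧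
      Lim n p q a b (fun k => U (φ k)) (fun k => V (φ k)) (fun k => ca (φ k)) (fun k => cb (φ k))
        Uoo Voo := by
  obtain ⟨φ, Uoo, hφ, hUc, hU⟩ := exists_subseq_limit U (h.lipschitz hn hp)
  obtain ⟨ψ, Voo, hψ, hVc, hV⟩ := exists_subseq_limit (fun k => V (φ k))
    ((h.comp hφ).swap.lipschitz hn hq)
  refine ⟨fun k => φ (ψ k), Uoo, Voo, hφ.comp hψ, h.comp (hφ.comp hψ), fun N => ?_, hV, hUc, hVc⟩
  rw [Metric.tendstoUniformlyOn_iff]
  exact fun ε hε => hψ.tendsto_atTop.eventually (Metric.tendstoUniformlyOn_iff.1 (hU N) ε hε)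

theorem Lim.tendsto (h : Lim n p q a b U V ca cb Uoo Voo) (x : EuclideanSpace ℝ (Fin n)) :
    Tendsto (fun k => U k x) atTop (𝓝 (Uoo x)) :=
  (h.convU ⌈‖x‖⌉₊).tendsto_at (mem_closedBall_zero_iff.2 (Nat.le_ceil _))

theorem Lim.bound_limit (h : Lim n p q a b U V ca cb Uoo Voo) :
    ∃ D : ℝ, ∀ x, 0 ≤ Uoo x ∧ Uoo x ≤ D := by
  obtain ⟨D, hD⟩ := h.blow.bound
  refine ⟨D, fun x => ?_⟩
  have hev := (hD ⌈‖x‖⌉₊).mono fun k hk => (hk x (mem_closedBall_zero_iff.2 (Nat.le_ceil _))).1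
  exact ⟨ge_of_tendsto (h.tendsto x) (hev.mono fun k hk => hk.1),
    le_of_tendsto (h.tendsto x) (hev.mono fun k hk => hk.2)⟩

/-- The Laplacians converge locally uniformly. -/
theorem Lim.tendsto_lap (hp : 0 < p) (h : Lim n p q a b U V ca cb Uoo Voo) (N : ℕ) :
    TendstoUniformlyOn (fun k => lap (U k)) (fun y => -(a * Voo y ^ p)) atTop (closedBall 0 N) := by
  obtain ⟨D, hD⟩ := h.blow.bound
  obtain ⟨D', hD'⟩ := h.swap.bound_limit
  set E : ℝ := max |D| |D'| with hE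
  rw [Metric.tendstoUniformlyOn_iff]
  intro ε hε
  obtain ⟨η, hη, hu⟩ := Metric.uniformContinuousOn_iff.1
    ((isCompact_Icc (a := (0 : ℝ)) (b := E)).uniformContinuousOn_of_continuous
      (Real.continuous_rpow_const hp.le).continuousOn) (ε / (2 * (|a| + 1))) (by positivity)
  have hE0 : 0 ≤ E := le_max_of_le_left (abs_nonneg D)
  set δ : ℝ := ε / (2 * (E ^ p + 1)) with hδ
  have hδ0 : 0 < δ := div_pos hε (by positivity)
  filter_upwards [hD N, h.blow.eqU N, Metric.tendstoUniformlyOn_iff.1 (h.blow.coefA N) δ hδ0,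
    Metric.tendstoUniformlyOn_iff.1 (h.convV N) η hη] with k hb he hc hv y hy
  obtain ⟨-, h0, h1⟩ := hb y hy
  obtain ⟨h0', h1'⟩ := hD' y
  have hVk : V k y ∈ Icc 0 E := ⟨h0, h1.trans ((le_abs_self D).trans (le_max_left _ _))⟩
  have hVo : Voo y ∈ Icc 0 E := ⟨h0', h1'.trans ((le_abs_self D').trans (le_max_right _ _))⟩
  have a1 := hu _ hVo _ hVk (hv y hy)
  have a2 := hc y hy
  rw [Real.dist_eq] at a1 a2
  rw [Real.dist_eq, he y hy]
  have hpE : V k y ^ p ≤ E ^ p := Real.rpow_le_rpow h0 hVk.2 hp.le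
  have e : -(a * Voo y ^ p) - -(ca k y * V k y ^ p) =
      (ca k y - a) * V k y ^ p - a * (Voo y ^ p - V k y ^ p) := by ring
  rw [e]
  refine (abs_sub _ _).trans_lt ?_
  rw [abs_mul, abs_mul, abs_sub_comm (ca k y)]
  have b1 : |a - ca k y| * |V k y ^ p| ≤ δ * E ^ p := by
    rw [abs_of_nonneg (Real.rpow_nonneg h0 _)]
    exact mul_le_mul a2.le hpE (Real.rpow_nonneg h0 _) hδ0.le
  have b2 : |a| * |Voo y ^ p - V k y ^ p| ≤ |a| * (ε / (2 * (|a| + 1))) :=
    mul_le_mul_of_nonneg_left a1.le (abs_nonneg a)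
  have c1 : δ * E ^ p < ε / 2 := by
    have : δ * (E ^ p + 1) = ε / 2 := by rw [hδ]; field_simp
    linarith
  have c2 : |a| * (ε / (2 * (|a| + 1))) ≤ ε / 2 := by
    have : (|a| + 1) * (ε / (2 * (|a| + 1))) = ε / 2 := by field_simp
    linarith [(by positivity : 0 ≤ ε / (2 * (|a| + 1)))]
  linarith

/-- The limit is continuously differentiable. -/
theorem Lim.contDiff_one (hn : 3 ≤ n) (hp : 0 < p) (h : Lim n p q a b U V ca cb Uoo Voo) :
    ContDiff ℝ 1 Uoo ∧ ∀ (N : ℕ) (j : Fin n),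
      TendstoUniformlyOn (fun k => pd j (U k)) (pd j Uoo) atTop (closedBall 0 N) := by
  refine contDiff_one_of_limit U (fun N => ?_) (fun N j => ?_) h.tendsto
    (uniformCauchy_grad hn (fun N => (h.blow.smooth N).mono fun _ hk => hk.1) h.convU
      (h.tendsto_lap hp))
  · refine (h.blow.smooth (N + 1)).mono fun k hk x hx => (hk.1.contDiffAt (isOpen_ball.mem_nhds
      (closedBall_subset_ball (by push_cast; linarith) hx))).differentiableAt (by norm_num)
  · refine (h.blow.smooth (N + 1)).mono fun k hk => (continuousOn_pd isOpen_ball hk.1 (by norm_num)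
      j).mono (closedBall_subset_ball (by push_cast; linarith))

end Vale.Agent.P100.Doubling
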