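import Vale.Agent.P100.Doubling.Regular
import Mathlib.Analysis.Hofer

/-!
P100, from the unweighted system to the weighted one: the doubling argument. A Liouville theorem for
the unweighted system bounds the positive solutions of the weighted one on an annulus by a universal
constant.
-/

open MeasureTheory Metric Set Filter Topology

namespace Vale.Agent.P100.Doubling

open Vale.Agent.P100.Sys
open Vale.Agent.P100.Sector

variable {n : ℕ} {A B p q : ℝ}

/-- Coefficients of rescaled solutions are nearly constant on balls. -/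
theorem tendsto_coef {z : ℕ → EuclideanSpace ℝ (Fin n)} {x₀ : EuclideanSpace ℝ (Fin n)}
    (hx₀ : x₀ ≠ 0) {l : ℕ → ℝ} (hz : Tendsto z atTop (𝓝 x₀)) (hl : Tendsto l atTop (𝓝 0)) (A : ℝ)
    (N : ℕ) :
    TendstoUniformlyOn (fun k y => ‖z k + l k • y‖ ^ A) (fun _ => ‖x₀‖ ^ A) atTop
      (closedBall (0 : EuclideanSpace ℝ (Fin n)) N) := by
  rw [Metric.tendstoUniformlyOn_iff]
  intro ε hε
  obtain ⟨δ, hδ, hc⟩ := Metric.continuousAt_iff.1
    ((continuous_norm.continuousAt (x := x₀)).rpow_const (p := A)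
      (Or.inl (norm_ne_zero_iff.2 hx₀))) ε hε
  filter_upwards [(Metric.tendsto_nhds.1 hz) (δ / 2) (half_pos hδ),
    (Metric.tendsto_nhds.1 hl) (δ / (2 * ((N : ℝ) + 1))) (by positivity)] with k h1 h2 y hy
  rw [mem_closedBall_zero_iff] at hy
  rw [dist_eq_norm] at h1
  rw [Real.dist_eq, sub_zero] at h2
  rw [dist_comm]
  refine hc ?_
  rw [dist_eq_norm, add_sub_right_comm]
  refine (norm_add_le _ _).trans_lt ?_
  rw [norm_smul, Real.norm_eq_abs]
  have h3 : |l k| * ‖y‖ ≤ δ / (2 * ((N : ℝ) + 1)) * ((N : ℝ) + 1) :=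
    mul_le_mul h2.le (by linarith) (norm_nonneg _) (by positivity)
  have e : δ / (2 * ((N : ℝ) + 1)) * ((N : ℝ) + 1) = δ / 2 := by field_simp
  linarith

theorem lap_rescale (w : EuclideanSpace ℝ (Fin n) → ℝ) (z y : EuclideanSpace ℝ (Fin n)) {l : ℝ}
    (hl : l ≠ 0) (a : ℝ) :
    lap (fun y => a * w (z + l • y)) y = a * l ^ 2 * lap w (z + l • y) := by
  have e : ∀ y, z + y = y - -z := fun y => by rw [sub_neg_eq_add, add_comm]
  rw [show (fun y => a * w (z + l • y)) = fun y => a * (fun x => w (x - -z)) (l • y) from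
    funext fun y => by simp only [e], lap_scale (fun x => w (x - -z)) hl a y, lap_comp_sub, e]

/-- A universal bound on an annulus. -/
theorem exists_sup_bound (hn : 3 ≤ n) (hp : 0 < p) (hq : 0 < q) (hpq : 1 < p * q)
    (liou : ∀ u v : EuclideanSpace ℝ (Fin n) → ℝ, ¬ Sol n 0 0 p q u v) :
    ∃ C : ℝ, 0 < C ∧ ∀ u v : EuclideanSpace ℝ (Fin n) → ℝ, Sol n A B p q u v →
      ∀ x, 3 / 4 ≤ ‖x‖ → ‖x‖ ≤ 3 / 2 → u x ≤ C ∧ v x ≤ C := by
  have hD : 0 < p * q - 1 := by linarith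
  set α : ℝ := 2 * (p + 1) / (p * q - 1) with hα
  set β : ℝ := 2 * (q + 1) / (p * q - 1) with hβ
  have hα0 : 0 < α := by positivity
  have hβ0 : 0 < β := by positivity
  have ha : β * p = α + 2 := by rw [hα, hβ, div_mul_eq_mul_div, div_add' _ _ _ hD.ne']; ring
  have hb : α * q = β + 2 := by rw [hα, hβ, div_mul_eq_mul_div, div_add' _ _ _ hD.ne']; ring
  suffices h : ∃ K : ℝ, 0 < K ∧ ∀ u v : EuclideanSpace ℝ (Fin n) → ℝ, Sol n A B p q u v →
      ∀ x, 3 / 4 ≤ ‖x‖ → ‖x‖ ≤ 3 / 2 → u x ^ (1 / α) + v x ^ (1 / β) ≤ K by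
    obtain ⟨K, hK, h⟩ := h
    refine ⟨K ^ α + K ^ β, by positivity, fun u v hs x h1 h2 => ?_⟩
    have := h u v hs x h1 h2
    have i1 : 0 ≤ u x ^ (1 / α) := Real.rpow_nonneg (hs.posu x).le _
    have i2 : 0 ≤ v x ^ (1 / β) := Real.rpow_nonneg (hs.posv x).le _
    have j1 := Real.rpow_le_rpow i1 (by linarith : u x ^ (1 / α) ≤ K) hα0.le
    have j2 := Real.rpow_le_rpow i2 (by linarith : v x ^ (1 / β) ≤ K) hβ0.le
    rw [← Real.rpow_mul (hs.posu x).le, one_div_mul_cancel hα0.ne', Real.rpow_one] at j1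
    rw [← Real.rpow_mul (hs.posv x).le, one_div_mul_cancel hβ0.ne', Real.rpow_one] at j2
    exact ⟨by linarith [Real.rpow_pos_of_pos hK β], by linarith [Real.rpow_pos_of_pos hK α]⟩
  by_contra! hbad
  choose u v hs x hx1 hx2 hM using fun k : ℕ => hbad ((k : ℝ) + 1) (by positivity)
  set M : ℕ → EuclideanSpace ℝ (Fin n) → ℝ := fun k y => u k y ^ (1 / α) + v k y ^ (1 / β) with hMd
  have hM0 : ∀ k y, 0 < M k y := fun k y => add_pos_of_pos_of_nonneg
    (Real.rpow_pos_of_pos ((hs k).posu y) _) (Real.rpow_nonneg ((hs k).posv y).le _)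
  have hhof : ∀ k, ∃ ε' > 0, ∃ x', ε' ≤ (1 / 16 : ℝ) ∧ dist x' (x k) ≤ 2 * (1 / 16) ∧
      1 / 16 * M k (x k) ≤ ε' * M k x' ∧ ∀ y, dist x' y ≤ ε' → M k y ≤ 2 * M k x' := fun k =>
    hofer (x k) (1 / 16) (by norm_num)
      (((hs k).contu.rpow_const fun y => Or.inl ((hs k).posu y).ne').add
        ((hs k).contv.rpow_const fun y => Or.inl ((hs k).posv y).ne')) fun y => (hM0 k y).le
  choose ε hε z hε16 hzx hεM hdbl using hhof
  set l : ℕ → ℝ := fun k => (M k (z k))⁻¹ with hl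
  have hl0 : ∀ k, 0 < l k := fun k => inv_pos.2 (hM0 k _)
  have hbig : ∀ k : ℕ, ((k : ℝ) + 1) / 16 ≤ ε k * M k (z k) := fun k => by
    have : (k : ℝ) + 1 < M k (x k) := hM k
    linarith [hεM k]
  have hgrow : ∀ k : ℕ, (k : ℝ) + 1 ≤ M k (z k) := fun k => by
    have := mul_le_mul_of_nonneg_right (hε16 k) (hM0 k (z k)).le
    linarith [hbig k]
  have hlim : Tendsto l atTop (𝓝 0) := tendsto_inv_atTop_zero.comp
    (tendsto_atTop_mono hgrow (tendsto_natCast_atTop_atTop.atTop_add tendsto_const_nhds))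
  have hzn : ∀ k, 5 / 8 ≤ ‖z k‖ ∧ ‖z k‖ ≤ 13 / 8 := fun k => by
    have := hzx k
    rw [dist_eq_norm] at this
    constructor <;> linarith [hx1 k, hx2 k, norm_le_insert' (x k) (z k), norm_le_insert' (z k) (x k),
      norm_sub_rev (z k) (x k)]
  obtain ⟨x₀, -, φ, hφ, hz⟩ := (isCompact_closedBall (0 : EuclideanSpace ℝ (Fin n)) 2).tendsto_subseq
    (x := z) fun k => mem_closedBall_zero_iff.2 (by linarith [(hzn k).2])
  have hx₀ : x₀ ≠ 0 := fun h => by
    have := ge_of_tendsto hz.norm (Eventually.of_forall fun k => (hzn (φ k)).1)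
    rw [h, norm_zero] at this
    linarith
  have hinside : ∀ N : ℕ, ∀ᶠ k in atTop, ∀ y ∈ closedBall (0 : EuclideanSpace ℝ (Fin n)) N,
      dist (z k) (z k + l k • y) ≤ ε k := fun N => by
    filter_upwards [eventually_ge_atTop (16 * N)] with k hk y hy
    rw [dist_eq_norm, sub_add_cancel_left, norm_neg, norm_smul, Real.norm_eq_abs,
      abs_of_pos (hl0 k), hl, inv_mul_le_iff₀ (hM0 k _)]
    rw [mem_closedBall_zero_iff] at hy
    have : (16 * N : ℝ) ≤ k := by exact_mod_cast hk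
    linarith [hbig k, mul_comm (ε k) (M k (z k))]
  have hne : ∀ k y, dist (z k) y ≤ ε k → y ≠ 0 := fun k y h h0 => by
    rw [h0, dist_zero_right] at h
    linarith [(hzn k).1, hε16 k]
  have hpow : ∀ {w γ m l : ℝ}, 0 < γ → 0 ≤ w → 0 < l → w ^ (1 / γ) ≤ m → l ^ γ * w ≤ (l * m) ^ γ := by
    intro w γ m l hγ hw hl h
    have h' := Real.rpow_le_rpow (Real.rpow_nonneg hw _) h hγ.le
    rw [← Real.rpow_mul hw, one_div_mul_cancel hγ.ne', Real.rpow_one] at h'
    rw [Real.mul_rpow hl.le (le_trans (Real.rpow_nonneg hw _) h)]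
    exact mul_le_mul_of_nonneg_left h' (Real.rpow_nonneg hl.le _)
  have hblow : Blowup n p q (‖x₀‖ ^ A) (‖x₀‖ ^ B)
      (fun k y => l (φ k) ^ α * u (φ k) (z (φ k) + l (φ k) • y))
      (fun k y => l (φ k) ^ β * v (φ k) (z (φ k) + l (φ k) • y))
      (fun k y => ‖z (φ k) + l (φ k) • y‖ ^ A) (fun k y => ‖z (φ k) + l (φ k) • y‖ ^ B) := by
    have hev := fun N => hφ.tendsto_atTop.eventually (hinside N)
    refine ⟨fun N => (hev N).mono fun k hk => ?_, ⟨(2 : ℝ) ^ α + (2 : ℝ) ^ β, fun N => ?_⟩,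
      fun N => (hev N).mono fun k hk y hy => ?_, fun N => (hev N).mono fun k hk y hy => ?_,
      tendsto_coef hx₀ hz (hlim.comp hφ.tendsto_atTop) A,
      tendsto_coef hx₀ hz (hlim.comp hφ.tendsto_atTop) B⟩
    · have hmap : MapsTo (fun y : EuclideanSpace ℝ (Fin n) => z (φ k) + l (φ k) • y) (ball 0 N) {0}ᶜ :=
        fun y hy => hne _ _ (hk y (ball_subset_closedBall hy))
      exact ⟨contDiffOn_const.mul ((hs _).smoothu.comp
          (contDiff_const.add (contDiff_const_smul _)).contDiffOn hmap),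
        contDiffOn_const.mul ((hs _).smoothv.comp
          (contDiff_const.add (contDiff_const_smul _)).contDiffOn hmap)⟩
    · refine (hev N).mono fun k hk y hy => ?_
      have hd := hdbl _ _ (hk y hy)
      set w := z (φ k) + l (φ k) • y
      have i1 : 0 ≤ u (φ k) w ^ (1 / α) := Real.rpow_nonneg ((hs _).posu w).le _
      have i2 : 0 ≤ v (φ k) w ^ (1 / β) := Real.rpow_nonneg ((hs _).posv w).le _
      have e : l (φ k) * (2 * M (φ k) (z (φ k))) = 2 := by
        rw [hl]; field_simp [(hM0 (φ k) (z (φ k))).ne']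
      have b1 := hpow hα0 ((hs _).posu w).le (hl0 (φ k))
        (show u (φ k) w ^ (1 / α) ≤ 2 * M (φ k) (z (φ k)) by simp only [hMd] at hd ⊢; linarith)
      have b2 := hpow hβ0 ((hs _).posv w).le (hl0 (φ k))
        (show v (φ k) w ^ (1 / β) ≤ 2 * M (φ k) (z (φ k)) by simp only [hMd] at hd ⊢; linarith)
      rw [e] at b1 b2
      refine ⟨⟨mul_nonneg (Real.rpow_nonneg (hl0 _).le _) ((hs _).posu w).le, ?_⟩,
        ⟨mul_nonneg (Real.rpow_nonneg (hl0 _).le _) ((hs _).posv w).le, ?_⟩⟩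
      · linarith [Real.rpow_pos_of_pos (two_pos : (0:ℝ) < 2) β]
      · linarith [Real.rpow_pos_of_pos (two_pos : (0:ℝ) < 2) α]
    · rw [lap_rescale _ _ _ (hl0 _).ne', (hs _).equ _ (hne _ _ (hk y hy)),
        Real.mul_rpow (Real.rpow_nonneg (hl0 _).le _) ((hs _).posv _).le, ← Real.rpow_mul (hl0 _).le,
        ha, Real.rpow_add (hl0 _), Real.rpow_two]
      ring
    · rw [lap_rescale _ _ _ (hl0 _).ne', (hs _).eqv _ (hne _ _ (hk y hy)),
        Real.mul_rpow (Real.rpow_nonneg (hl0 _).le _) ((hs _).posu _).le, ← Real.rpow_mul (hl0 _).le,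
        hb, Real.rpow_add (hl0 _), Real.rpow_two]
      ring
  refine hblow.false hn hp hq hpq liou (Real.rpow_pos_of_pos (norm_pos_iff.2 hx₀) _)
    (Real.rpow_pos_of_pos (norm_pos_iff.2 hx₀) _) (s := 1 / α) (t := 1 / β) (one_div_pos.2 hα0)
    (one_div_pos.2 hβ0) (Eventually.of_forall fun k => ?_)
  simp only [smul_zero, add_zero]
  rw [Real.mul_rpow (Real.rpow_nonneg (hl0 _).le _) ((hs _).posu _).le,
    Real.mul_rpow (Real.rpow_nonneg (hl0 _).le _) ((hs _).posv _).le, ← Real.rpow_mul (hl0 _).le,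
    ← Real.rpow_mul (hl0 _).le, mul_one_div_cancel hα0.ne', mul_one_div_cancel hβ0.ne',
    Real.rpow_one, ← mul_add]
  exact inv_mul_cancel₀ (hM0 (φ k) (z (φ k))).ne'

end Vale.Agent.P100.Doubling
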