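import Vale.Agent.P100.Sys.Div

/-!
P100, from the unweighted system to the weighted one: extraction of a locally uniform limit from
locally equi-Lipschitz functions, and differentiability of a limit whose partial derivatives are
locally uniformly Cauchy.
-/

open Metric Set Filter Topology

namespace Vale.Agent.P100.Doubling

open Vale.Agent.P100.Sys (pd)

variable {n : ℕ}

/-- Arzelà and Ascoli, for a sequence eventually Lipschitz and bounded on every ball. -/
theorem exists_subseq_limit (f : ℕ → EuclideanSpace ℝ (Fin n) → ℝ)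
    (h : ∀ N : ℕ, ∃ L : ℝ, ∀ᶠ k in atTop, ∀ x ∈ closedBall (0 : EuclideanSpace ℝ (Fin n)) N,
      |f k x| ≤ L ∧ ∀ y ∈ closedBall (0 : EuclideanSpace ℝ (Fin n)) N,
        |f k x - f k y| ≤ L * ‖x - y‖) :
    ∃ (φ : ℕ → ℕ) (g : EuclideanSpace ℝ (Fin n) → ℝ), StrictMono φ ∧ Continuous g ∧
      ∀ N : ℕ, TendstoUniformlyOn (fun k => f (φ k)) g atTop
        (closedBall (0 : EuclideanSpace ℝ (Fin n)) N) := by
  choose L hL using h
  set d : ℕ → EuclideanSpace ℝ (Fin n) := TopologicalSpace.denseSeq _ with hd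
  set Nd : ℕ → ℕ := fun i => ⌈‖d i‖⌉₊ with hNd
  have hdN : ∀ i, d i ∈ closedBall (0 : EuclideanSpace ℝ (Fin n)) (Nd i) := fun i =>
    mem_closedBall_zero_iff.2 (Nat.le_ceil _)
  set c : ℕ → ℕ → ℝ := fun k i => max (-|L (Nd i)|) (min |L (Nd i)| (f k (d i))) with hc
  have hK : IsCompact (Set.univ.pi fun i : ℕ => Icc (-|L (Nd i)|) |L (Nd i)|) :=
    isCompact_univ_pi fun i => isCompact_Icc
  obtain ⟨a, -, φ, hφ, hlim⟩ := hK.tendsto_subseq (x := c) fun k i _ =>
    ⟨le_max_left _ _, max_le (by linarith [abs_nonneg (L (Nd i))]) (min_le_left _ _)⟩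
  have hpt : ∀ i, Tendsto (fun k => f (φ k) (d i)) atTop (𝓝 (a i)) := fun i => by
    refine (((continuous_apply i).tendsto a).comp hlim).congr' ?_
    filter_upwards [hφ.tendsto_atTop.eventually (hL (Nd i))] with k hk
    have h' := abs_le.1 ((hk _ (hdN i)).1.trans (le_abs_self _))
    show c (φ k) i = f (φ k) (d i)
    rw [hc]
    simp only
    rw [min_eq_right h'.2, max_eq_right h'.1]
  have hcau : ∀ N : ℕ, UniformCauchySeqOn (fun k => f (φ k)) atTop
      (closedBall (0 : EuclideanSpace ℝ (Fin n)) N) := by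
    intro N
    rw [Metric.uniformCauchySeqOn_iff]
    intro ε hε
    set L₁ := |L (N + 1)| with hL₁
    set r : ℝ := min 1 (ε / (4 * (L₁ + 1))) with hr
    have hr0 : 0 < r := lt_min one_pos (by positivity)
    obtain ⟨t, ht⟩ := (isCompact_closedBall (0 : EuclideanSpace ℝ (Fin n)) (N : ℝ)).elim_finite_subcover
      (fun i : {i // d i ∈ closedBall (0 : EuclideanSpace ℝ (Fin n)) ((N + 1 : ℕ) : ℝ)} =>
        ball (d i.1) r) (fun _ => isOpen_ball) fun x hx => by
        obtain ⟨i, hi⟩ := (TopologicalSpace.denseRange_denseSeq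
          (EuclideanSpace ℝ (Fin n))).exists_dist_lt x hr0
        refine mem_iUnion.2 ⟨⟨i, ?_⟩, hi⟩
        rw [mem_closedBall] at hx ⊢
        push_cast
        linarith [dist_triangle_left (d i) 0 x, min_le_left (1 : ℝ) (ε / (4 * (L₁ + 1)))]
    have hev : ∀ᶠ k in atTop, (∀ x ∈ closedBall (0 : EuclideanSpace ℝ (Fin n)) ((N + 1 : ℕ) : ℝ),
        ∀ y ∈ closedBall (0 : EuclideanSpace ℝ (Fin n)) ((N + 1 : ℕ) : ℝ),
          |f (φ k) x - f (φ k) y| ≤ L₁ * ‖x - y‖) ∧
        ∀ i ∈ t, |f (φ k) (d i.1) - a i.1| < ε / 4 := by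
      refine (((hφ.tendsto_atTop.eventually (hL (N + 1))).mono fun k hk x hx y hy =>
        ((hk x hx).2 y hy).trans (mul_le_mul_of_nonneg_right (le_abs_self _) (norm_nonneg _)))).and ?_
      rw [eventually_all_finset]
      intro i _
      have := (Metric.tendsto_nhds.1 (hpt i.1)) (ε / 4) (by positivity)
      simpa [Real.dist_eq] using this
    obtain ⟨k₀, hk₀⟩ := eventually_atTop.1 hev
    refine ⟨k₀, fun k hk l hl x hx => ?_⟩
    obtain ⟨i, hi, hxi⟩ := mem_iUnion₂.1 (ht hx)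
    obtain ⟨hLk, hak⟩ := hk₀ k hk
    obtain ⟨hLl, hal⟩ := hk₀ l hl
    have hx1 : x ∈ closedBall (0 : EuclideanSpace ℝ (Fin n)) ((N + 1 : ℕ) : ℝ) :=
      closedBall_subset_closedBall (by push_cast; linarith) hx
    have hsmall : L₁ * ‖x - d i.1‖ ≤ ε / 4 := by
      rw [mem_ball, dist_eq_norm] at hxi
      have h1 : ‖x - d i.1‖ ≤ ε / (4 * (L₁ + 1)) := hxi.le.trans (min_le_right _ _)
      rw [le_div_iff₀ (by positivity)] at h1
      linarith [norm_nonneg (x - d i.1)]
    have h1 := (hLk x hx1 _ i.2).trans hsmall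
    have h2 := (hLl x hx1 _ i.2).trans hsmall
    have h3 := hak i hi
    have h4 := hal i hi
    rw [abs_le] at h1 h2
    rw [abs_lt] at h3 h4
    rw [Real.dist_eq, abs_lt]
    constructor <;> linarith
  have hex : ∀ x : EuclideanSpace ℝ (Fin n), ∃ v, Tendsto (fun k => f (φ k) x) atTop (𝓝 v) :=
    fun x => cauchySeq_tendsto_of_complete
      ((hcau ⌈‖x‖⌉₊).cauchy_map (mem_closedBall_zero_iff.2 (Nat.le_ceil _)))
  choose g hg using hex
  have hu : ∀ N : ℕ, TendstoUniformlyOn (fun k => f (φ k)) g atTop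
      (closedBall (0 : EuclideanSpace ℝ (Fin n)) N) :=
    fun N => (hcau N).tendstoUniformlyOn_of_tendsto fun x _ => hg x
  refine ⟨φ, g, hφ, continuous_iff_continuousAt.2 fun x => ?_, hu⟩
  set N := ⌈‖x‖⌉₊ + 1 with hN
  have hc' : ContinuousOn g (closedBall (0 : EuclideanSpace ℝ (Fin n)) N) := by
    refine (hu N).continuousOn (Eventually.frequently ?_)
    filter_upwards [hφ.tendsto_atTop.eventually (hL N)] with k hk
    refine LipschitzOnWith.continuousOn (K := Real.toNNReal |L N|)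
      (LipschitzOnWith.of_dist_le_mul fun y hy z hz => ?_)
    rw [Real.coe_toNNReal _ (abs_nonneg _), Real.dist_eq, dist_eq_norm]
    exact ((hk y hy).2 z hz).trans (mul_le_mul_of_nonneg_right (le_abs_self _) (norm_nonneg _))
  refine hc'.continuousAt (mem_of_superset (isOpen_ball.mem_nhds
    (mem_ball_zero_iff.2 (?_ : ‖x‖ < (N : ℝ)))) ball_subset_closedBall)
  rw [hN]
  push_cast
  linarith [Nat.le_ceil ‖x‖]

/-- The differential from the partial derivatives. -/
theorem fderiv_eq_sum (f : EuclideanSpace ℝ (Fin n) → ℝ) (x : EuclideanSpace ℝ (Fin n)) :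
    fderiv ℝ f x = ∑ i, pd i f x • EuclideanSpace.proj (𝕜 := ℝ) i := by
  ext v
  have hv : v = ∑ i, v i • EuclideanSpace.single i (1 : ℝ) := by
    ext j
    simp [Pi.single_apply]
  conv_lhs => rw [hv]
  simp [pd, map_sum, mul_comm]

/-- A limit is `C¹` when the partial derivatives are locally uniformly Cauchy. -/
theorem contDiff_one_of_limit (f : ℕ → EuclideanSpace ℝ (Fin n) → ℝ)
    {g : EuclideanSpace ℝ (Fin n) → ℝ}
    (hd : ∀ N : ℕ, ∀ᶠ k in atTop, ∀ x ∈ closedBall (0 : EuclideanSpace ℝ (Fin n)) N,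
      DifferentiableAt ℝ (f k) x)
    (hc : ∀ (N : ℕ) (j : Fin n), ∀ᶠ k in atTop,
      ContinuousOn (pd j (f k)) (closedBall (0 : EuclideanSpace ℝ (Fin n)) N))
    (hlim : ∀ x, Tendsto (fun k => f k x) atTop (𝓝 (g x)))
    (hcau : ∀ (N : ℕ) (j : Fin n), UniformCauchySeqOn (fun k => pd j (f k)) atTop
      (closedBall (0 : EuclideanSpace ℝ (Fin n)) N)) :
    ContDiff ℝ 1 g ∧ ∀ (N : ℕ) (j : Fin n),
      TendstoUniformlyOn (fun k => pd j (f k)) (pd j g) atTop
        (closedBall (0 : EuclideanSpace ℝ (Fin n)) N) := by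
  have hex : ∀ (j : Fin n) (x : EuclideanSpace ℝ (Fin n)),
      ∃ v, Tendsto (fun k => pd j (f k) x) atTop (𝓝 v) := fun j x =>
    cauchySeq_tendsto_of_complete
      ((hcau ⌈‖x‖⌉₊ j).cauchy_map (mem_closedBall_zero_iff.2 (Nat.le_ceil _)))
  choose G hG using hex
  have hu : ∀ (N : ℕ) (j : Fin n), TendstoUniformlyOn (fun k => pd j (f k)) (G j) atTop
      (closedBall (0 : EuclideanSpace ℝ (Fin n)) N) := fun N j =>
    (hcau N j).tendstoUniformlyOn_of_tendsto fun x _ => hG j x
  have hGc : ∀ j, Continuous (G j) := fun j => continuous_iff_continuousAt.2 fun x => by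
    refine ((hu (⌈‖x‖⌉₊ + 1) j).continuousOn (hc _ j).frequently).continuousAt
      (mem_of_superset (isOpen_ball.mem_nhds (mem_ball_zero_iff.2 ?_)) ball_subset_closedBall)
    push_cast
    linarith [Nat.le_ceil ‖x‖]
  set g' : EuclideanSpace ℝ (Fin n) → EuclideanSpace ℝ (Fin n) →L[ℝ] ℝ :=
    fun x => ∑ i, G i x • EuclideanSpace.proj (𝕜 := ℝ) i with hg'
  have hder : ∀ x, HasFDerivAt g (g' x) x := by
    intro x
    set N := ⌈‖x‖⌉₊ + 1 with hN
    have hnhds : closedBall (0 : EuclideanSpace ℝ (Fin n)) N ∈ 𝓝 x := by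
      refine mem_of_superset (isOpen_ball.mem_nhds (mem_ball_zero_iff.2 (?_ : ‖x‖ < (N : ℝ))))
        ball_subset_closedBall
      rw [hN]
      push_cast
      linarith [Nat.le_ceil ‖x‖]
    have huni : TendstoUniformlyOn (fun k => fderiv ℝ (f k)) g' atTop
        (closedBall (0 : EuclideanSpace ℝ (Fin n)) N) := by
      rw [Metric.tendstoUniformlyOn_iff]
      intro ε hε
      set P : ℝ := ∑ i : Fin n, ‖(EuclideanSpace.proj (𝕜 := ℝ) i : EuclideanSpace ℝ (Fin n) →L[ℝ] ℝ)‖ + 1 with hP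
      have hP0 : 0 < P := add_pos_of_nonneg_of_pos (Finset.sum_nonneg fun i _ => norm_nonneg _) one_pos
      have hev : ∀ᶠ k in atTop, ∀ i : Fin n, ∀ y ∈ closedBall (0 : EuclideanSpace ℝ (Fin n)) N,
          dist (G i y) (pd i (f k) y) < ε / P := eventually_all.2 fun i =>
        (Metric.tendstoUniformlyOn_iff.1 (hu N i)) (ε / P) (div_pos hε hP0)
      filter_upwards [hev] with k hk y hy
      rw [dist_eq_norm, fderiv_eq_sum, hg']
      simp only
      rw [← Finset.sum_sub_distrib]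
      refine (norm_sum_le _ _).trans_lt ?_
      calc ∑ i, ‖G i y • EuclideanSpace.proj (𝕜 := ℝ) i - pd i (f k) y • EuclideanSpace.proj (𝕜 := ℝ) i‖
          ≤ ∑ i : Fin n, ε / P *
              ‖(EuclideanSpace.proj (𝕜 := ℝ) i : EuclideanSpace ℝ (Fin n) →L[ℝ] ℝ)‖ := Finset.sum_le_sum fun i _ => by
            rw [← sub_smul, norm_smul]
            exact mul_le_mul_of_nonneg_right (hk i y hy).le (norm_nonneg _)
        _ < ε := by
            rw [← Finset.mul_sum, div_mul_eq_mul_div, div_lt_iff₀ hP0, hP]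
            exact mul_lt_mul_of_pos_left (by linarith) hε
    refine hasFDerivAt_of_tendstoUniformlyOnFilter (f := f) (f' := fun k => fderiv ℝ (f k))
      (huni.tendstoUniformlyOnFilter.mono_right (le_principal_iff.2 hnhds)) ?_
      (Eventually.of_forall hlim)
    exact ((hd N).prod_mk hnhds).mono fun z hz => (hz.1 z.2 hz.2).hasFDerivAt
  have hpd : ∀ j, pd j g = G j := fun j => funext fun x => by
    show fderiv ℝ g x _ = _
    rw [(hder x).fderiv, hg']
    simp
  refine ⟨contDiff_one_iff_hasFDerivAt.2 ⟨g', ?_, hder⟩, fun N j => ?_⟩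
  · exact continuous_finsetSum _ fun i _ => (hGc i).smul continuous_const
  · rw [hpd j]
    exact hu N j

end Vale.Agent.P100.Doubling
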