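import Vale.Agent.P100.Doubling.GradBound
import Vale.Agent.P100.Doubling.Extract

/-!
P100, from the unweighted system to the weighted one: convergence lemmas. Uniform convergence of the
functions and of their Laplacians gives that of the gradients; difference quotients of a `C¹`
function converge locally uniformly.
-/

open MeasureTheory Metric Set Filter Topology

namespace Vale.Agent.P100.Doubling

open Vale.Agent.P100.Sys

variable {n : ℕ}

theorem pd_sub_of {F G : EuclideanSpace ℝ (Fin n) → ℝ} {x : EuclideanSpace ℝ (Fin n)}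
    (hF : DifferentiableAt ℝ F x) (hG : DifferentiableAt ℝ G x) (i : Fin n) :
    pd i (fun y => F y - G y) x = pd i F x - pd i G x := by
  show fderiv ℝ (fun y => F y - G y) x _ = _
  rw [fderiv_fun_sub hF hG]
  rfl

theorem lap_sub_of {F G : EuclideanSpace ℝ (Fin n) → ℝ} {x : EuclideanSpace ℝ (Fin n)}
    (hF : ContDiffAt ℝ 2 F x) (hG : ContDiffAt ℝ 2 G x) :
    lap (fun y => F y - G y) x = lap F x - lap G x := by
  simp only [lap, ← Finset.sum_sub_distrib]
  refine Finset.sum_congr rfl fun i _ => ?_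
  have hev : ∀ᶠ y in 𝓝 x, DifferentiableAt ℝ F y ∧ DifferentiableAt ℝ G y :=
    ((hF.eventually (by simp)).mono fun y hy => hy.differentiableAt (by norm_num)).and
      ((hG.eventually (by simp)).mono fun y hy => hy.differentiableAt (by norm_num))
  rw [pd_congr (hev.mono fun y hy => pd_sub_of hy.1 hy.2 i) i,
    pd_sub_of (Vale.Agent.P100.Cmp.differentiableAt_pd hF i)
      (Vale.Agent.P100.Cmp.differentiableAt_pd hG i)]

/-- The norm of the differential, from the partial derivatives. -/
theorem exists_norm_fderiv_le (n : ℕ) :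
    ∃ P : ℝ, 0 < P ∧ ∀ (f : EuclideanSpace ℝ (Fin n) → ℝ) (x : EuclideanSpace ℝ (Fin n)) (C : ℝ),
      (∀ i, |pd i f x| ≤ C) → 0 ≤ C → ‖fderiv ℝ f x‖ ≤ P * C := by
  refine ⟨∑ i : Fin n, ‖(EuclideanSpace.proj (𝕜 := ℝ) i : EuclideanSpace ℝ (Fin n) →L[ℝ] ℝ)‖ + 1,
    add_pos_of_nonneg_of_pos (Finset.sum_nonneg fun i _ => norm_nonneg _) one_pos,
    fun f x C h hC => ?_⟩
  rw [fderiv_eq_sum]
  refine (norm_sum_le _ _).trans ?_
  rw [add_mul, one_mul, Finset.sum_mul]
  refine le_add_of_le_of_nonneg (Finset.sum_le_sum fun i _ => ?_) hC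
  rw [norm_smul, Real.norm_eq_abs, mul_comm]
  exact mul_le_mul_of_nonneg_left (h i) (norm_nonneg _)

theorem ball_four_subset {x : EuclideanSpace ℝ (Fin n)} {N : ℕ}
    (hx : x ∈ closedBall (0 : EuclideanSpace ℝ (Fin n)) N) :
    ball x 4 ⊆ ball (0 : EuclideanSpace ℝ (Fin n)) ((N + 5 : ℕ) : ℝ) := by
  refine ball_subset_ball' ?_
  rw [mem_closedBall] at hx
  push_cast
  linarith

theorem closedBall_two_subset {x : EuclideanSpace ℝ (Fin n)} {N : ℕ}
    (hx : x ∈ closedBall (0 : EuclideanSpace ℝ (Fin n)) N) :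
    closedBall x 2 ⊆ closedBall (0 : EuclideanSpace ℝ (Fin n)) ((N + 5 : ℕ) : ℝ) := by
  refine closedBall_subset_closedBall' ?_
  rw [mem_closedBall] at hx
  push_cast
  linarith

/-- Uniform convergence of functions and Laplacians makes the gradients uniformly Cauchy. -/
theorem uniformCauchy_grad (hn : 3 ≤ n) {w : ℕ → EuclideanSpace ℝ (Fin n) → ℝ}
    {g h : EuclideanSpace ℝ (Fin n) → ℝ}
    (hs : ∀ N : ℕ, ∀ᶠ k in atTop, ContDiffOn ℝ 2 (w k) (ball 0 N))
    (hg : ∀ N : ℕ, TendstoUniformlyOn w g atTop (closedBall 0 N))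
    (hh : ∀ N : ℕ, TendstoUniformlyOn (fun k => lap (w k)) h atTop (closedBall 0 N))
    (N : ℕ) (j : Fin n) :
    UniformCauchySeqOn (fun k => pd j (w k)) atTop (closedBall 0 N) := by
  obtain ⟨C, hC, hgrad⟩ := exists_local_grad hn
  rw [Metric.uniformCauchySeqOn_iff]
  intro ε hε
  set δ : ℝ := ε / (5 * C) with hδ
  have hδ0 : 0 < δ := by positivity
  obtain ⟨k₀, hk₀⟩ := eventually_atTop.1 ((hs (N + 5)).and
    ((Metric.tendstoUniformlyOn_iff.1 (hg (N + 5)) δ hδ0).and
      (Metric.tendstoUniformlyOn_iff.1 (hh (N + 5)) δ hδ0)))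
  refine ⟨k₀, fun k hk l hl x hx => ?_⟩
  obtain ⟨sk, gk, hk'⟩ := hk₀ k hk
  obtain ⟨sl, gl, hl'⟩ := hk₀ l hl
  have hsub := ball_four_subset hx
  have hat : ∀ y ∈ ball x 4, ContDiffAt ℝ 2 (w k) y ∧ ContDiffAt ℝ 2 (w l) y := fun y hy =>
    ⟨sk.contDiffAt (isOpen_ball.mem_nhds (hsub hy)), sl.contDiffAt (isOpen_ball.mem_nhds (hsub hy))⟩
  have hb := hgrad (fun y => w k y - w l y) x (2 * δ) (2 * δ) ((sk.mono hsub).sub (sl.mono hsub))
    (fun y hy => ?_) (fun y hy => ?_) j
  · have hd := hat x (mem_ball_self (by norm_num))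
    rw [pd_sub_of (hd.1.differentiableAt (by norm_num)) (hd.2.differentiableAt (by norm_num))] at hb
    rw [Real.dist_eq]
    refine hb.trans_lt ?_
    have e : C * (2 * δ + 2 * δ) = 4 * ε / 5 := by rw [hδ]; field_simp; ring
    linarith
  · have a1 := gk y (closedBall_two_subset hx hy)
    have a2 := gl y (closedBall_two_subset hx hy)
    rw [Real.dist_eq, abs_lt] at a1 a2
    rw [abs_le]
    constructor <;> linarith
  · have hy4 : y ∈ ball x 4 := closedBall_subset_ball (by norm_num) hy
    rw [lap_sub_of (hat y hy4).1 (hat y hy4).2]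
    have a1 := hk' y (closedBall_two_subset hx hy)
    have a2 := hl' y (closedBall_two_subset hx hy)
    rw [Real.dist_eq, abs_lt] at a1 a2
    rw [abs_le]
    constructor <;> linarith

/-- Integrals over a compact set along a uniformly convergent sequence. -/
theorem tendsto_setIntegral_uniform {K : Set (EuclideanSpace ℝ (Fin n))} (hK : IsCompact K)
    {F : ℕ → EuclideanSpace ℝ (Fin n) → ℝ} {G : EuclideanSpace ℝ (Fin n) → ℝ}
    (hF : ∀ᶠ k in atTop, ContinuousOn (F k) K) (hu : TendstoUniformlyOn F G atTop K) :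
    Tendsto (fun k => ∫ x in K, F k x) atTop (𝓝 (∫ x in K, G x)) := by
  have hG : ContinuousOn G K := hu.continuousOn hF.frequently
  rw [Metric.tendsto_nhds]
  intro ε hε
  set δ : ℝ := ε / (volume.real K + 1) with hδ
  have hδ0 : 0 < δ := div_pos hε (by positivity)
  filter_upwards [hF, Metric.tendstoUniformlyOn_iff.1 hu δ hδ0] with k hk hd
  rw [Real.dist_eq, ← integral_sub (hk.integrableOn_compact hK) (hG.integrableOn_compact hK),
    ← Real.norm_eq_abs]
  refine (norm_setIntegral_le_of_norm_le_const (C := δ) hK.measure_lt_top fun x hx => ?_).trans_lt ?_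
  · rw [Real.norm_eq_abs, abs_sub_comm, ← Real.dist_eq]
    exact (hd x hx).le
  · rw [hδ, div_mul_eq_mul_div, div_lt_iff₀ (by positivity)]
    exact mul_lt_mul_of_pos_left (lt_add_one _) hε

/-- The difference quotient in a coordinate direction. -/
noncomputable def quot (i : Fin n) (h : ℝ) (F : EuclideanSpace ℝ (Fin n) → ℝ)
    (x : EuclideanSpace ℝ (Fin n)) : ℝ :=
  (F (x + EuclideanSpace.single i h) - F x) / h

/-- Difference quotients of a `C¹` function converge locally uniformly to the derivative. -/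
theorem tendstoUniformlyOn_quot {F : EuclideanSpace ℝ (Fin n) → ℝ} (hF : ContDiff ℝ 1 F)
    (i : Fin n) (N : ℕ) :
    TendstoUniformlyOn (fun m : ℕ => quot i (1 / ((m : ℝ) + 1)) F) (pd i F) atTop
      (closedBall 0 N) := by
  rw [Metric.tendstoUniformlyOn_iff]
  intro ε hε
  have hc : Continuous (pd i F) := (hF.continuous_fderiv (by norm_num)).clm_apply continuous_const
  obtain ⟨δ, hδ, hu⟩ := Metric.uniformContinuousOn_iff.1
    ((isCompact_closedBall (0 : EuclideanSpace ℝ (Fin n)) ((N : ℝ) + 1)).uniformContinuousOn_of_continuous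
      hc.continuousOn) ε hε
  obtain ⟨m₀, hm₀⟩ := exists_nat_one_div_lt hδ
  filter_upwards [eventually_ge_atTop m₀] with m hm x hx
  set t : ℝ := 1 / ((m : ℝ) + 1) with ht
  have ht0 : 0 < t := by positivity
  have htδ : t < δ := lt_of_le_of_lt
    (one_div_le_one_div_of_le (by positivity) (by exact_mod_cast Nat.add_le_add_right hm 1)) hm₀
  have ht1 : t ≤ 1 := by
    rw [ht, div_le_one (by positivity)]
    linarith [(Nat.cast_nonneg m : (0 : ℝ) ≤ m)]
  have hline : ∀ s : ℝ, HasDerivAt (fun s => F (x + EuclideanSpace.single i s))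
      (pd i F (x + EuclideanSpace.single i s)) s := by
    intro s
    have hl : HasDerivAt (fun s : ℝ => x + EuclideanSpace.single i s)
        (EuclideanSpace.single i (1 : ℝ)) s := by
      have e : (fun s : ℝ => x + EuclideanSpace.single i s) =
          fun s => x + s • EuclideanSpace.single i (1 : ℝ) := funext fun s => by
        congr 1
        ext k
        simp
      rw [e]
      simpa using ((hasDerivAt_id s).smul_const (EuclideanSpace.single i (1 : ℝ))).const_add x
    exact ((hF.differentiable (by norm_num)) _).hasFDerivAt.comp_hasDerivAt s hl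
  obtain ⟨c, hc', hslope⟩ := exists_hasDerivAt_eq_slope (fun s => F (x + EuclideanSpace.single i s))
    (fun s => pd i F (x + EuclideanSpace.single i s)) ht0
    (fun s _ => (hline s).continuousAt.continuousWithinAt) (fun s _ => hline s)
  have e0 : x + EuclideanSpace.single i (0 : ℝ) = x := by
    ext k
    simp
  rw [sub_zero, e0] at hslope
  show dist (pd i F x) ((F (x + EuclideanSpace.single i t) - F x) / t) < ε
  rw [← hslope]
  have hn' : ‖EuclideanSpace.single i c‖ = c := by simp [abs_of_pos hc'.1]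
  refine hu x (closedBall_subset_closedBall (by linarith) hx) _ ?_ ?_
  · rw [mem_closedBall_zero_iff] at hx ⊢
    linarith [norm_add_le x (EuclideanSpace.single i c), hc'.2]
  · rw [dist_eq_norm, show x - (x + EuclideanSpace.single i c) = -EuclideanSpace.single i c by abel,
      norm_neg, hn']
    linarith [hc'.2]

theorem pd_quot {F : EuclideanSpace ℝ (Fin n) → ℝ} (i j : Fin n) {h : ℝ}
    {x : EuclideanSpace ℝ (Fin n)} (h1 : DifferentiableAt ℝ F x)
    (h2 : DifferentiableAt ℝ F (x + EuclideanSpace.single i h)) :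
    pd j (quot i h F) x = quot i h (pd j F) x := by
  have h3 : DifferentiableAt ℝ (fun y => F (y + EuclideanSpace.single i h)) x :=
    h2.comp x (differentiableAt_id.add_const _)
  have e : pd j (fun y => F (y + EuclideanSpace.single i h)) x =
      pd j F (x + EuclideanSpace.single i h) := by
    show fderiv ℝ (fun y => F (y + EuclideanSpace.single i h)) x _ = _
    rw [fderiv_comp_add_right]
    rfl
  show fderiv ℝ (fun y => (F (y + EuclideanSpace.single i h) - F y) / h) x _ = _
  simp only [div_eq_inv_mul]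
  rw [fderiv_const_mul (h3.fun_sub h1), fderiv_fun_sub h3 h1]
  show h⁻¹ * (fderiv ℝ (fun y => F (y + EuclideanSpace.single i h)) x _ - fderiv ℝ F x _) = _
  rw [show fderiv ℝ (fun y => F (y + EuclideanSpace.single i h)) x (EuclideanSpace.single j 1) =
    pd j F (x + EuclideanSpace.single i h) from e]
  simp [quot, pd, div_eq_inv_mul]

end Vale.Agent.P100.Doubling
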