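import Vale.Agent.P100.Doubling.Main
import Vale.Agent.P100.Full.Main
import Vale.Agent.P100.Pos.KapBound
import Vale.Agent.P100.Sector.Unweighted

/-!
P100: the weighted conjecture wherever the exponents are subcritical for the unweighted system, too.
-/

open Filter Topology Set Metric
open scoped Laplacian

namespace Vale.Agent.P100.Doubling

open Vale.Agent.P100.Sys
open Vale.Agent.P100.Sector

variable {n : ℕ} {A B p q : ℝ}

/-- A positive entire solution in Mathlib's terms is a solution in the sense of `Sol`. -/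
theorem exists_sol_of_solution
    (h : ∃ u v : EuclideanSpace ℝ (Fin n) → ℝ, Continuous u ∧ Continuous v ∧
      (∀ x, 0 < u x ∧ 0 < v x) ∧
      ∀ x ≠ 0, ContDiffAt ℝ 2 u x ∧ ContDiffAt ℝ 2 v x ∧
        -Δ u x = ‖x‖ ^ A * v x ^ p ∧ -Δ v x = ‖x‖ ^ B * u x ^ q) :
    ∃ u v : EuclideanSpace ℝ (Fin n) → ℝ, Sol n A B p q u v := by
  obtain ⟨u, v, hu, hv, hpos, h⟩ := h
  refine ⟨u, v, hu, hv, fun x => (hpos x).1, fun x => (hpos x).2,
    fun x hx => (h x (by simpa using hx)).1.contDiffWithinAt,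
    fun x hx => (h x (by simpa using hx)).2.1.contDiffWithinAt, fun x hx => ?_, fun x hx => ?_⟩
  · rw [← laplacian_eq_lap (h x hx).1, ← (h x hx).2.2.1, neg_neg]
  · rw [← laplacian_eq_lap (h x hx).2.1, ← (h x hx).2.2.2, neg_neg]

/-- The unweighted conjecture in the terms of `Sol`. -/
theorem not_sol_unweighted (hn : 3 ≤ n) (hp : 0 < p) (hq : 0 < q)
    (hsub : ((n : ℝ) - 2) / n < 1 / (p + 1) + 1 / (q + 1))
    (u v : EuclideanSpace ℝ (Fin n) → ℝ) : ¬ Sol n 0 0 p q u v := by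
  intro h
  refine Full.lane_emden_of hn
    (fun _ _ hp hq hpq hs hc => Sector.no_solution_unweighted hn hp hq hpq hs hc)
    (fun _ _ _ _ _ h => Pos.kap_bound h) hp hq hsub
    ⟨u, v, h.contu, h.contv, fun x => ⟨h.posu x, h.posv x⟩, fun x hx => ?_⟩
  have hu := h.smoothu.contDiffAt (isOpen_compl_singleton.mem_nhds hx)
  have hv := h.smoothv.contDiffAt (isOpen_compl_singleton.mem_nhds hx)
  refine ⟨hu, hv, ?_, ?_⟩
  · rw [laplacian_eq_lap hu, h.equ x hx, Real.rpow_zero, one_mul, neg_neg]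
  · rw [laplacian_eq_lap hv, h.eqv x hx, Real.rpow_zero, one_mul, neg_neg]

/-- Weights above `-2`, exponents subcritical with and without the weights. -/
theorem no_solution_of_subcritical (hn : 3 ≤ n) (hA : -2 < A) (hB : -2 < B) (hp : 0 < p)
    (hq : 0 < q)
    (hsub : (n : ℝ) - 2 < ((n : ℝ) + A) / (p + 1) + ((n : ℝ) + B) / (q + 1))
    (hsub0 : ((n : ℝ) - 2) / n < 1 / (p + 1) + 1 / (q + 1)) :
    ¬ ∃ u v : EuclideanSpace ℝ (Fin n) → ℝ, Continuous u ∧ Continuous v ∧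
      (∀ x, 0 < u x ∧ 0 < v x) ∧
      ∀ x ≠ 0, ContDiffAt ℝ 2 u x ∧ ContDiffAt ℝ 2 v x ∧
        -Δ u x = ‖x‖ ^ A * v x ^ p ∧ -Δ v x = ‖x‖ ^ B * u x ^ q := by
  intro h
  obtain ⟨u, v, hs⟩ := exists_sol_of_solution h
  exact not_sol hn hA hB hp hq hsub (not_sol_unweighted hn hp hq hsub0) hs

end Vale.Agent.P100.Doubling
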