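import Vale.Agent.P100.Doubling.Bound
import Vale.Agent.P100.Sector.Low

/-!
P100, from the unweighted system to the weighted one: a Liouville theorem for the unweighted system
excludes positive entire solutions of the subcritical weighted system, for all weights above `-2`.
-/

open MeasureTheory Metric Set Filter Topology

namespace Vale.Agent.P100.Doubling

open Vale.Agent.P100.Sys
open Vale.Agent.P100.Sector

variable {n : ℕ} {A B p q : ℝ}

/-- The gradient on a thin annulus is bounded by the values on a thicker one. -/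
theorem exists_grad_bound (hn : 3 ≤ n) (A : ℝ) (hp : 0 ≤ p) {K : ℝ} (hK : 0 ≤ K) :
    ∃ G : ℝ, 0 ≤ G ∧ ∀ u v : EuclideanSpace ℝ (Fin n) → ℝ, (∀ x, 0 ≤ u x) → (∀ x, 0 ≤ v x) →
      ContDiffOn ℝ 2 u {0}ᶜ → (∀ x ≠ 0, lap u x = -(‖x‖ ^ A * v x ^ p)) →
      (∀ x, 3 / 4 ≤ ‖x‖ → ‖x‖ ≤ 3 / 2 → u x ≤ K ∧ v x ≤ K) →
      ∀ x, 13 / 12 ≤ ‖x‖ → ‖x‖ ≤ 7 / 6 → ∀ j, |pd j u x| ≤ G := by
  obtain ⟨C, hC, hgrad⟩ := exists_local_grad hn
  set E : ℝ := (1 / 16 : ℝ) ^ 2 * ((3 : ℝ) ^ |A| * K ^ p) with hE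
  refine ⟨16 * (C * (K + E)), by positivity, fun u v hu0 hv0 hu2 heq hbd x hx1 hx2 j => ?_⟩
  have hin : ∀ y : EuclideanSpace ℝ (Fin n), ‖y‖ ≤ 4 → x + (1 / 16 : ℝ) • y ≠ 0 := fun y hy h => by
    have := congrArg norm (eq_neg_of_add_eq_zero_left h)
    rw [norm_neg, norm_smul, Real.norm_eq_abs, abs_of_pos (by norm_num : (0 : ℝ) < 1 / 16)] at this
    linarith
  have hclose : ∀ y ∈ closedBall (0 : EuclideanSpace ℝ (Fin n)) 2,
      3 / 4 ≤ ‖x + (1 / 16 : ℝ) • y‖ ∧ ‖x + (1 / 16 : ℝ) • y‖ ≤ 3 / 2 := fun y hy => by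
    rw [mem_closedBall_zero_iff] at hy
    have e : ‖(1 / 16 : ℝ) • y‖ = 1 / 16 * ‖y‖ := by
      rw [norm_smul, Real.norm_eq_abs, abs_of_pos (by norm_num : (0 : ℝ) < 1 / 16)]
    constructor
    · linarith [norm_le_add_norm_add x ((1 / 16 : ℝ) • y)]
    · linarith [norm_add_le x ((1 / 16 : ℝ) • y)]
  have hb := hgrad (fun y => 1 * u (x + (1 / 16 : ℝ) • y)) 0 K E
    (contDiffOn_const.mul (hu2.comp (contDiff_const.add (contDiff_const_smul _)).contDiffOn
      fun y hy => hin y (mem_ball_zero_iff.1 hy).le))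
    (fun y hy => by
      rw [one_mul, abs_of_nonneg (hu0 _)]
      exact (hbd _ (hclose y hy).1 (hclose y hy).2).1)
    (fun y hy => by
      obtain ⟨c1, c2⟩ := hclose y hy
      rw [lap_rescale _ _ _ (by norm_num : (1 / 16 : ℝ) ≠ 0), one_mul,
        heq _ (hin y (by linarith [mem_closedBall_zero_iff.1 hy])), mul_neg, abs_neg,
        abs_of_nonneg (mul_nonneg (sq_nonneg _) (mul_nonneg (Real.rpow_nonneg (norm_nonneg _) _)
          (Real.rpow_nonneg (hv0 _) _))), hE]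
      exact mul_le_mul_of_nonneg_left (mul_le_mul
        (norm_rpow_le_shell (mem_shell.2 ⟨by linarith, by linarith⟩) A)
        (Real.rpow_le_rpow (hv0 _) (hbd _ c1 c2).2 hp) (Real.rpow_nonneg (hv0 _) _)
        (Real.rpow_nonneg (by norm_num) _)) (sq_nonneg _)) j
  have e : pd j (fun y => 1 * u (x + (1 / 16 : ℝ) • y)) 0 = 1 / 16 * pd j u x := by
    rw [show (fun y => 1 * u (x + (1 / 16 : ℝ) • y)) =
        fun y => (fun z => u (z - -x)) ((1 / 16 : ℝ) • y) from funext fun y => by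
      simp only [one_mul, sub_neg_eq_add, add_comm],
      pd_comp_smul (fun z => u (z - -x)) (by norm_num : (1 / 16 : ℝ) ≠ 0), pd_comp_sub, smul_zero,
      zero_sub, neg_neg]
  rw [e, abs_mul, abs_of_pos (by norm_num : (0 : ℝ) < 1 / 16)] at hb
  linarith

/-- The energy of the unit ball is universally bounded. -/
theorem exists_energy_bound (hn : 3 ≤ n) (hA : -2 < A) (hB : -2 < B) (hp : 0 < p) (hq : 0 < q)
    (hpq : 1 < p * q)
    (hsub : (n : ℝ) - 2 < ((n : ℝ) + A) / (p + 1) + ((n : ℝ) + B) / (q + 1))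
    (liou : ∀ u v : EuclideanSpace ℝ (Fin n) → ℝ, ¬ Sol n 0 0 p q u v) :
    ∃ C : ℝ, ∀ u v : EuclideanSpace ℝ (Fin n) → ℝ, Sol n A B p q u v →
      energy A B p q u v 1 ≤ C := by
  obtain ⟨K, hK, hbd⟩ := exists_sup_bound (A := A) (B := B) hn hp hq hpq liou
  obtain ⟨G₁, hG₁, hgu⟩ := exists_grad_bound (n := n) hn A hp.le hK.le
  obtain ⟨G₂, hG₂, hgv⟩ := exists_grad_bound (n := n) hn B hq.le hK.le
  obtain ⟨Cp, hCp, hpoho⟩ := exists_pohozaev hn hA hB hp hq hsub
  set S := slab n (9 / 8) (1 / 24) with hS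
  set H : ℝ := n * G₁ * (n * G₂) + K * (n * G₂) + K * (n * G₁) +
    ((3 : ℝ) ^ |A| * K ^ (p + 1) + (3 : ℝ) ^ |B| * K ^ (q + 1)) with hH
  refine ⟨Cp / (1 / 24) * (volume.real S * H), fun u v h => ?_⟩
  have hSb : ∀ x ∈ S, 13 / 12 ≤ ‖x‖ ∧ ‖x‖ ≤ 7 / 6 := fun x hx => by
    obtain ⟨a1, a2⟩ := abs_le.1 (show |‖x‖ - 9 / 8| ≤ 1 / 24 from hx)
    constructor <;> linarith
  have hSc : IsCompact S := (isCompact_closedBall (0 : EuclideanSpace ℝ (Fin n)) 4).of_isClosed_subset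
    (isClosed_slab _ _) (slab_subset_closedBall (by norm_num) (by norm_num))
  have hS0 : S ⊆ ({0}ᶜ : Set (EuclideanSpace ℝ (Fin n))) := fun x hx h0 => by
    have := (hSb x hx).1
    rw [mem_singleton_iff] at h0
    rw [h0, norm_zero] at this
    linarith
  have hbnd : ∀ x ∈ S, bdry A B p q u v x ≤ H := fun x hx => by
    obtain ⟨x1, x2⟩ := hSb x hx
    obtain ⟨bu, bv⟩ := hbd u v h x (by linarith) (by linarith)
    have hsum : ∀ (w : EuclideanSpace ℝ (Fin n) → ℝ) (G : ℝ), (∀ j, |pd j w x| ≤ G) →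
        gradAbs w x ≤ n * G := fun w G hw =>
      (Finset.sum_le_sum fun j _ => hw j).trans_eq (by simp)
    have gu := hsum u G₁ (hgu u v (fun y => (h.posu y).le) (fun y => (h.posv y).le) h.smoothu h.equ
      (hbd u v h) x x1 x2)
    have gv := hsum v G₂ (hgv v u (fun y => (h.posv y).le) (fun y => (h.posu y).le) h.smoothv h.eqv
      (fun y y1 y2 => (hbd u v h y y1 y2).symm) x x1 x2)
    have hg0 : ∀ w : EuclideanSpace ℝ (Fin n) → ℝ, 0 ≤ gradAbs w x := fun w =>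
      Finset.sum_nonneg fun j _ => abs_nonneg _
    have hsh : x ∈ shell n := mem_shell.2 ⟨by linarith, by linarith⟩
    refine add_le_add (add_le_add (add_le_add (mul_le_mul gu gv (hg0 v) (by positivity))
      (mul_le_mul bu gv (hg0 v) hK.le)) (mul_le_mul bv gu (hg0 u) hK.le)) (add_le_add ?_ ?_)
    · exact mul_le_mul (norm_rpow_le_shell hsh A)
        (Real.rpow_le_rpow (h.posv x).le bv (by linarith)) (Real.rpow_nonneg (h.posv x).le _)
        (Real.rpow_nonneg (by norm_num) _)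
    · exact mul_le_mul (norm_rpow_le_shell hsh B)
        (Real.rpow_le_rpow (h.posu x).le bu (by linarith)) (Real.rpow_nonneg (h.posu x).le _)
        (Real.rpow_nonneg (by norm_num) _)
  have hint : ∫ x in S, bdry A B p q u v x ≤ volume.real S * H := by
    refine (setIntegral_mono_on ((h.continuousOn_bdry.mono hS0).integrableOn_compact hSc)
      (integrableOn_const hSc.measure_lt_top.ne) hSc.measurableSet hbnd).trans_eq ?_
    rw [setIntegral_const, smul_eq_mul]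
  refine (energy_mono hn hA hB hp hq h (by norm_num : (1 : ℝ) ≤ 9 / 8 - 1 / 24)).trans
    ((hpoho u v h (9 / 8) (1 / 24) (by norm_num) (by norm_num) (by norm_num) le_rfl).trans ?_)
  exact mul_le_mul_of_nonneg_left hint (by positivity)

/-- A Liouville theorem without weights gives one with weights. -/
theorem not_sol (hn : 3 ≤ n) (hA : -2 < A) (hB : -2 < B) (hp : 0 < p) (hq : 0 < q)
    (hsub : (n : ℝ) - 2 < ((n : ℝ) + A) / (p + 1) + ((n : ℝ) + B) / (q + 1))
    (liou : ∀ u v : EuclideanSpace ℝ (Fin n) → ℝ, ¬ Sol n 0 0 p q u v)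
    {u v : EuclideanSpace ℝ (Fin n) → ℝ} : ¬ Sol n A B p q u v := by
  rcases le_or_gt (p * q) 1 with hpq | hpq
  · exact not_sol_of_le_one hn hA hB hp hq hpq
  · obtain ⟨C, hC⟩ := exists_energy_bound hn hA hB hp hq hpq hsub liou
    exact not_sol_of_energy_bound hn hA hB hp hq hpq hsub hC

end Vale.Agent.P100.Doubling
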