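import Vale.Agent.P100.Doubling.Blowup

/-!
P100, from the unweighted system to the weighted one: a nonzero limit of a blow-up sequence is
positive everywhere.
-/

open MeasureTheory Metric Set Filter Topology

namespace Vale.Agent.P100.Doubling

open Vale.Agent.P100.Sys
open Vale.Agent.P100.Sector

variable {n : ℕ} {p q a b : ℝ} {U V ca cb : ℕ → EuclideanSpace ℝ (Fin n) → ℝ}
  {Uoo Voo : EuclideanSpace ℝ (Fin n) → ℝ}

theorem lap_congr {F G : EuclideanSpace ℝ (Fin n) → ℝ} {x : EuclideanSpace ℝ (Fin n)}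
    (h : F =ᶠ[𝓝 x] G) : lap F x = lap G x := by
  simp only [lap]
  refine Finset.sum_congr rfl fun i _ => ?_
  exact pd_congr ((eventually_eventually_nhds.2 h).mono fun y hy => pd_congr hy i) i

/-- A local solution moved to a centre and cut off. -/
theorem cut_translate {w : EuclideanSpace ℝ (Fin n) → ℝ} {z : EuclideanSpace ℝ (Fin n)} {N : ℕ}
    (hN : ‖z‖ + 42 ≤ N) (hw : ContDiffOn ℝ 2 w (ball 0 N)) :
    ContDiff ℝ 2 (fun y => cut n 20 y * w (z + y)) ∧
      ∀ y, ‖y‖ < 20 → cut n 20 y * w (z + y) = w (z + y) ∧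
        lap (fun y => cut n 20 y * w (z + y)) y = lap w (z + y) := by
  have hmap : MapsTo (fun y : EuclideanSpace ℝ (Fin n) => z + y) (ball 0 41) (ball 0 N) :=
    fun y hy => by
      rw [mem_ball_zero_iff] at hy ⊢
      linarith [norm_add_le z y]
  refine ⟨contDiff_of_tsupport_subset isOpen_ball
    (contDiff_cut.contDiffOn.mul (hw.comp (contDiff_const.add contDiff_id).contDiffOn hmap)) ?_,
    fun y hy => ?_⟩
  · refine (closure_minimal (fun y hy => ?_) isClosed_closedBall).trans
      (closedBall_subset_ball (by norm_num : (40 : ℝ) < 41))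
    rw [mem_closedBall_zero_iff]
    by_contra h
    refine hy ?_
    show cut n 20 y * _ = 0
    rw [cut_eq_zero (by norm_num) (by linarith), zero_mul]
  · have hev : (fun y => cut n 20 y * w (z + y)) =ᶠ[𝓝 y] fun y => w (z + y) :=
      ((isOpen_lt continuous_norm continuous_const).eventually_mem hy).mono fun x hx => by
        show cut n 20 x * w (z + x) = w (z + x)
        rw [cut_eq_one (by norm_num) (le_of_lt hx), one_mul]
    refine ⟨hev.eq_of_nhds, ?_⟩
    rw [lap_congr hev, show (fun y => w (z + y)) = fun y => w (y - -z) from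
      funext fun y => by rw [sub_neg_eq_add, add_comm], lap_comp_sub, sub_neg_eq_add, add_comm]

theorem shell_translate {z : EuclideanSpace ℝ (Fin n)} {N : ℕ} (hN : ‖z‖ + 3 ≤ N) :
    MapsTo (fun y : EuclideanSpace ℝ (Fin n) => z + y) (shell n) (closedBall 0 N) := fun y hy => by
  rw [mem_closedBall_zero_iff]
  linarith [norm_add_le z y, (mem_shell.1 hy).2]

/-- The test inequality passes to the limit. -/
theorem Lim.test (hn : 3 ≤ n) (hp : 0 < p) (ha : 0 < a) (h : Lim n p q a b U V ca cb Uoo Voo) :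
    ∃ c : ℝ, 0 < c ∧ ∀ z, c * ((∫ y in shell n, a * Voo (z + y) ^ p) +
      ∫ y in shell n, Uoo (z + y)) ≤ Uoo z := by
  obtain ⟨c, hc, hpt⟩ := exists_point_bound_local (n := n) hn
  refine ⟨c, hc, fun z => ?_⟩
  obtain ⟨D, hD⟩ := h.blow.bound
  obtain ⟨N, hN⟩ : ∃ N : ℕ, ‖z‖ + 83 ≤ N := ⟨_, Nat.le_ceil _⟩
  have hsh := shell_translate (n := n) (z := z) (N := N) (by linarith)
  have hU : TendstoUniformlyOn (fun k y => U k (z + y)) (fun y => Uoo (z + y)) atTop (shell n) :=
    ((h.convU N).comp (fun y => z + y)).mono hsh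
  have hL : TendstoUniformlyOn (fun k y => lap (U k) (z + y)) (fun y => -(a * Voo (z + y) ^ p))
      atTop (shell n) := ((h.tendsto_lap hp N).comp (fun y => z + y)).mono hsh
  have hc1 : ∀ᶠ k in atTop, ContinuousOn (fun y => U k (z + y)) (shell n) :=
    (h.blow.smooth (N + 1)).mono fun k hk => hk.1.continuousOn.comp
      (continuous_const.add continuous_id).continuousOn fun y hy =>
        closedBall_subset_ball (by push_cast; linarith) (hsh hy)
  have hc2 : ∀ᶠ k in atTop, ContinuousOn (fun y => lap (U k) (z + y)) (shell n) :=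
    (h.blow.smooth (N + 1)).mono fun k hk => (continuousOn_finsetSum _ fun i _ =>
      continuousOn_pd isOpen_ball (contDiffOn_pd (m := 1) isOpen_ball hk.1 (by norm_num) i) le_rfl
        i).comp (continuous_const.add continuous_id).continuousOn fun y hy =>
        closedBall_subset_ball (by push_cast; linarith) (hsh hy)
  have lim := ((tendsto_setIntegral_uniform isCompact_shell hc2 hL).neg.add
    (tendsto_setIntegral_uniform isCompact_shell hc1 hU)).const_mul c
  simp only [integral_neg, neg_neg] at lim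
  refine le_of_tendsto_of_tendsto lim (h.tendsto z) ?_
  filter_upwards [h.blow.smooth N, hD N, h.blow.eqU N,
    Metric.tendstoUniformlyOn_iff.1 (h.blow.coefA N) a ha] with k hs hb he hca
  obtain ⟨hW, hWy⟩ := cut_translate (n := n) (z := z) (N := N) (by linarith) hs.1
  have h0 : ∀ y, 0 ≤ cut n 20 y * U k (z + y) := fun y => by
    rcases le_or_gt ‖y‖ 40 with hy | hy
    · exact mul_nonneg cut_nonneg (hb _ (mem_closedBall_zero_iff.2
        (by linarith [norm_add_le z y]))).1.1
    · rw [cut_eq_zero (by norm_num) (by linarith), zero_mul]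
  have hb' := hpt (fun y => cut n 20 y * U k (z + y)) hW.continuous h0 hW.contDiffOn 0 (by simp)
    (fun y _ hy => by
      rw [sub_zero] at hy
      have hmem : z + y ∈ closedBall (0 : EuclideanSpace ℝ (Fin n)) N :=
        mem_closedBall_zero_iff.2 (by linarith [norm_add_le z y])
      rw [(hWy y (by linarith)).2, he _ hmem, neg_nonpos]
      have hca' := hca _ hmem
      rw [Real.dist_eq, abs_lt] at hca'
      exact mul_nonneg (by linarith) (Real.rpow_nonneg (hb _ hmem).2.1 _))
  have hsd : shell n \ ball (0 : EuclideanSpace ℝ (Fin n)) (1 / 4) = shell n :=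
    sdiff_eq_self_iff_disjoint.2 (Set.disjoint_left.2 fun y hy hy' => by
      rw [mem_ball_zero_iff] at hy
      linarith [(mem_shell.1 hy').1])
  have hy20 : ∀ y ∈ shell n, ‖y‖ < 20 := fun y hy => by linarith [(mem_shell.1 hy).2]
  rw [hsd, setIntegral_congr_fun (μ := volume) isCompact_shell.measurableSet
      (fun y hy => (hWy y (hy20 y hy)).1),
    setIntegral_congr_fun (μ := volume) isCompact_shell.measurableSet
      (fun y hy => congrArg Neg.neg (hWy y (hy20 y hy)).2), integral_neg,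
    (hWy 0 (by simp)).1, add_zero] at hb'
  exact hb'

/-- A continuous nonnegative function with zero integral over the shell vanishes inside it. -/
theorem eq_zero_of_shell {F : EuclideanSpace ℝ (Fin n) → ℝ} (hF : Continuous F) (h0 : ∀ y, 0 ≤ F y)
    (hI : (∫ y in shell n, F y) ≤ 0) {y : EuclideanSpace ℝ (Fin n)} (h1 : 1 / 2 < ‖y‖)
    (h2 : ‖y‖ < 3) : F y = 0 := by
  by_contra hne
  have hpos : 0 < ∫ x in shell n, F x := by
    rw [setIntegral_pos_iff_support_of_nonneg_ae (Eventually.of_forall h0)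
      (hF.continuousOn.integrableOn_compact isCompact_shell)]
    refine lt_of_lt_of_le (((hF.isOpen_preimage _ isOpen_ne).inter
      ((isOpen_lt continuous_const continuous_norm).inter
        (isOpen_lt continuous_norm continuous_const))).measure_pos volume
          (U := (F ⁻¹' {t | t ≠ 0}) ∩ ({x | 1 / 2 < ‖x‖} ∩ {x | ‖x‖ < 3})) ⟨y, hne, h1, h2⟩)
      (measure_mono ?_)
    rintro x ⟨hx, hx1, hx2⟩
    exact ⟨hx, mem_shell.2 ⟨le_of_lt hx1, le_of_lt hx2⟩⟩
  linarith

/-- A nonzero limit is positive. -/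
theorem Lim.pos (hn : 3 ≤ n) (hp : 0 < p) (ha : 0 < a) (h : Lim n p q a b U V ca cb Uoo Voo)
    (hne : 0 < Uoo 0 + Voo 0) (x : EuclideanSpace ℝ (Fin n)) : 0 < Uoo x := by
  obtain ⟨c, hc, htest⟩ := h.test hn hp ha
  obtain ⟨D, hU0⟩ := h.bound_limit
  obtain ⟨D', hV0⟩ := h.swap.bound_limit
  have hVc : Continuous fun y => a * Voo y ^ p :=
    continuous_const.mul (h.contV.rpow_const fun _ => Or.inr hp.le)
  have hsp : ∀ z, Uoo z = 0 → ∀ w, 1 / 2 < ‖w - z‖ → ‖w - z‖ < 3 → Uoo w = 0 ∧ Voo w = 0 := by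
    intro z hz w h1 h2
    have ht := htest z
    rw [hz] at ht
    have i1 : 0 ≤ ∫ y in shell n, a * Voo (z + y) ^ p := setIntegral_nonneg
      isCompact_shell.measurableSet fun y _ => mul_nonneg ha.le (Real.rpow_nonneg (hV0 _).1 _)
    have i2 : 0 ≤ ∫ y in shell n, Uoo (z + y) :=
      setIntegral_nonneg isCompact_shell.measurableSet fun y _ => (hU0 _).1
    have hsum : (∫ y in shell n, a * Voo (z + y) ^ p) + ∫ y in shell n, Uoo (z + y) ≤ 0 :=
      nonpos_of_mul_nonpos_right (by linarith) hc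
    have e1 := eq_zero_of_shell (F := fun y => Uoo (z + y))
      (h.contU.comp (continuous_const.add continuous_id))
      (fun y => (hU0 _).1) (by linarith) h1 h2
    have e2 := eq_zero_of_shell (F := fun y => a * Voo (z + y) ^ p)
      (hVc.comp (continuous_const.add continuous_id))
      (fun y => mul_nonneg ha.le (Real.rpow_nonneg (hV0 _).1 _)) (by linarith) h1 h2
    simp only [add_sub_cancel] at e1 e2
    refine ⟨e1, ?_⟩
    rcases mul_eq_zero.1 e2 with e | e
    · linarith
    · exact ((Real.rpow_eq_zero (hV0 w).1 hp.ne').1 e)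
  obtain ⟨e, he⟩ : ∃ e : EuclideanSpace ℝ (Fin n), ‖e‖ = 1 :=
    ⟨EuclideanSpace.single ⟨0, by omega⟩ 1, by simp⟩
  have hball : ∀ z, Uoo z = 0 → ∀ w ∈ ball z (3 / 2), Uoo w = 0 ∧ Voo w = 0 := by
    intro z hz w hw
    rw [mem_ball, dist_eq_norm] at hw
    obtain ⟨d, hd, hdw⟩ : ∃ d : EuclideanSpace ℝ (Fin n), ‖d‖ = 1 ∧
        ‖w - z + (3 / 2 : ℝ) • d‖ = ‖w - z‖ + 3 / 2 := by
      by_cases h0 : w - z = 0
      · refine ⟨e, he, ?_⟩
        rw [h0, zero_add, norm_smul, he, norm_zero, zero_add, mul_one]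
        norm_num
      · have hn0 : 0 < ‖w - z‖ := norm_pos_iff.2 h0
        refine ⟨(‖w - z‖⁻¹) • (w - z), by rw [norm_smul, norm_inv, norm_norm, inv_mul_cancel₀ hn0.ne'],
          ?_⟩
        rw [smul_smul, show w - z + (3 / 2 * ‖w - z‖⁻¹) • (w - z) =
          (1 + 3 / 2 * ‖w - z‖⁻¹) • (w - z) by rw [add_smul, one_smul], norm_smul, Real.norm_eq_abs,
          abs_of_pos (by positivity), add_mul, one_mul, mul_assoc, inv_mul_cancel₀ hn0.ne', mul_one]
    have hm := hsp z hz (z - (3 / 2 : ℝ) • d) (by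
      rw [sub_sub_cancel_left, norm_neg, norm_smul, hd]; norm_num) (by
      rw [sub_sub_cancel_left, norm_neg, norm_smul, hd]; norm_num)
    refine hsp _ hm.1 w ?_ ?_ <;>
      rw [show w - (z - (3 / 2 : ℝ) • d) = w - z + (3 / 2 : ℝ) • d by abel, hdw]
    · linarith [norm_nonneg (w - z)]
    · linarith
  refine (hU0 x).1.lt_of_ne fun hx => ?_
  set Z : Set (EuclideanSpace ℝ (Fin n)) := {w | Uoo w = 0} with hZ
  have hclosed : IsClosed Z := isClosed_eq h.contU continuous_const
  have hopen : IsOpen Z := isOpen_iff_mem_nhds.2 fun z hz =>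
    mem_of_superset (ball_mem_nhds z (by norm_num)) fun w hw => (hball z hz w hw).1
  have huniv : Z = univ := IsClopen.eq_univ ⟨hclosed, hopen⟩ ⟨x, hx.symm⟩
  have h0 : (0 : EuclideanSpace ℝ (Fin n)) ∈ Z := huniv ▸ mem_univ _
  obtain ⟨hu, hv⟩ := hball 0 h0 0 (mem_ball_self (by norm_num))
  rw [hu, hv] at hne
  linarith

end Vale.Agent.P100.Doubling
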