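import Vale.Agent.P100.Doubling.Positivity
import Vale.Agent.P100.Sector.Main

/-!
P100, from the unweighted system to the weighted one: the limit of a blow-up sequence is a twice
continuously differentiable solution of the unweighted system, so a Liouville theorem for that
system excludes blow-up.
-/

open MeasureTheory Metric Set Filter Topology

namespace Vale.Agent.P100.Doubling

open Vale.Agent.P100.Sys
open Vale.Agent.P100.Sector
open Vale.Agent.P100.Cmp (continuous_lap)

variable {n : ℕ} {p q a b : ℝ} {U V ca cb : ℕ → EuclideanSpace ℝ (Fin n) → ℝ}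
  {Uoo Voo : EuclideanSpace ℝ (Fin n) → ℝ}

theorem lap_const_mul (c : ℝ) (F : EuclideanSpace ℝ (Fin n) → ℝ) (x : EuclideanSpace ℝ (Fin n)) :
    lap (fun y => c * F y) x = c * lap F x := by
  simpa using lap_scale F one_ne_zero c x

/-- The gradient of a limit, by the limits of the function and of the Laplacian. -/
theorem exists_grad_limit_le (hn : 3 ≤ n) :
    ∃ C : ℝ, 0 < C ∧ ∀ (w : ℕ → EuclideanSpace ℝ (Fin n) → ℝ)
      (g h : EuclideanSpace ℝ (Fin n) → ℝ) (x : EuclideanSpace ℝ (Fin n)) (D D' G : ℝ) (j : Fin n),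
      (∀ᶠ k in atTop, ContDiffOn ℝ 2 (w k) (ball x 4)) →
      TendstoUniformlyOn w g atTop (closedBall x 2) →
      TendstoUniformlyOn (fun k => lap (w k)) h atTop (closedBall x 2) →
      (∀ y ∈ closedBall x 2, |g y| ≤ D) → (∀ y ∈ closedBall x 2, |h y| ≤ D') →
      Tendsto (fun k => pd j (w k) x) atTop (𝓝 G) → |G| ≤ C * (D + D') := by
  obtain ⟨C, hC, hgrad⟩ := exists_local_grad hn
  refine ⟨C, hC, fun w g h x D D' G j hs hg hh hD hD' hG => le_of_forall_pos_le_add fun ε hε => ?_⟩
  set δ : ℝ := ε / (2 * C) with hδ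
  have hδ0 : 0 < δ := by positivity
  refine le_of_tendsto hG.abs ?_
  filter_upwards [hs, Metric.tendstoUniformlyOn_iff.1 hg δ hδ0,
    Metric.tendstoUniformlyOn_iff.1 hh δ hδ0] with k hk h1 h2
  refine (hgrad (w k) x (D + δ) (D' + δ) hk (fun y hy => ?_) (fun y hy => ?_) j).trans_eq ?_
  · have := h1 y hy
    rw [Real.dist_eq, abs_sub_comm] at this
    linarith [abs_sub_abs_le_abs_sub (w k y) (g y), hD y hy]
  · have := h2 y hy
    rw [Real.dist_eq, abs_sub_comm] at this
    linarith [abs_sub_abs_le_abs_sub (lap (w k) y) (h y), hD' y hy]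
  · rw [hδ]
    field_simp
    ring

theorem norm_add_single_le {x y : EuclideanSpace ℝ (Fin n)} {N : ℕ} (i : Fin n) {t : ℝ}
    (ht0 : 0 < t) (ht1 : t ≤ 1) (hx : x ∈ closedBall (0 : EuclideanSpace ℝ (Fin n)) N)
    (hy : y ∈ closedBall x 2) :
    y ∈ closedBall (0 : EuclideanSpace ℝ (Fin n)) ((N + 6 : ℕ) : ℝ) ∧
      y + EuclideanSpace.single i t ∈ closedBall (0 : EuclideanSpace ℝ (Fin n)) ((N + 6 : ℕ) : ℝ) := by
  rw [mem_closedBall, dist_eq_norm] at hy
  rw [mem_closedBall_zero_iff] at hx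
  have h1 : ‖y‖ ≤ N + 2 := by linarith [norm_le_insert' y x]
  have h2 : ‖EuclideanSpace.single i t‖ = t := by simp [abs_of_pos ht0]
  constructor <;> rw [mem_closedBall_zero_iff] <;> push_cast
  · linarith
  · linarith [norm_add_le y (EuclideanSpace.single i t)]

/-- Difference quotients of a uniformly convergent sequence. -/
theorem tendsto_quot_seq {F : ℕ → EuclideanSpace ℝ (Fin n) → ℝ}
    {G : EuclideanSpace ℝ (Fin n) → ℝ} {N : ℕ} {x : EuclideanSpace ℝ (Fin n)} (i : Fin n) {t : ℝ}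
    (ht0 : 0 < t) (ht1 : t ≤ 1) (hx : x ∈ closedBall (0 : EuclideanSpace ℝ (Fin n)) N)
    (h : TendstoUniformlyOn F G atTop (closedBall 0 ((N + 6 : ℕ) : ℝ))) :
    TendstoUniformlyOn (fun k => quot i t (F k)) (quot i t G) atTop (closedBall x 2) := by
  rw [Metric.tendstoUniformlyOn_iff]
  intro ε hε
  filter_upwards [Metric.tendstoUniformlyOn_iff.1 h (ε * t / 2) (by positivity)] with k hk y hy
  obtain ⟨m1, m2⟩ := norm_add_single_le i ht0 ht1 hx hy
  have a1 := hk _ m1
  have a2 := hk _ m2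
  rw [Real.dist_eq, abs_lt] at a1 a2
  rw [Real.dist_eq, quot, quot, ← sub_div, abs_div, abs_of_pos ht0, div_lt_iff₀ ht0, abs_lt]
  constructor <;> linarith

theorem lap_quot {F : EuclideanSpace ℝ (Fin n) → ℝ} {x : EuclideanSpace ℝ (Fin n)} (i : Fin n)
    (t : ℝ) (hF : ContDiffAt ℝ 2 F x) (hF' : ContDiffAt ℝ 2 F (x + EuclideanSpace.single i t)) :
    lap (quot i t F) x = quot i t (lap F) x := by
  have e : quot i t F = fun y => t⁻¹ * (F (y - -EuclideanSpace.single i t) - F y) := funext fun y => by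
    rw [quot, sub_neg_eq_add, div_eq_inv_mul]
  have hs : ContDiffAt ℝ 2 (fun y => F (y - -EuclideanSpace.single i t)) x := by
    rw [← sub_neg_eq_add] at hF'
    exact hF'.comp x (contDiffAt_id.sub contDiffAt_const)
  rw [e, lap_const_mul, lap_sub_of hs hF, lap_comp_sub, sub_neg_eq_add, quot, div_eq_inv_mul]

theorem continuous_quot {F : EuclideanSpace ℝ (Fin n) → ℝ} (hF : Continuous F) (i : Fin n) (t : ℝ) :
    Continuous (quot i t F) :=
  ((hF.comp (continuous_id.add continuous_const)).sub hF).div_const t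

/-- The limit is twice continuously differentiable. -/
theorem Lim.contDiff_two (hn : 3 ≤ n) (hp : 0 < p) (hq : 0 < q)
    (h : Lim n p q a b U V ca cb Uoo Voo) (hV : ∀ x, 0 < Voo x) : ContDiff ℝ 2 Uoo := by
  obtain ⟨hU1, hgU⟩ := h.contDiff_one hn hp
  have hV1 := (h.swap.contDiff_one hn hq).1
  set f : EuclideanSpace ℝ (Fin n) → ℝ := fun y => -(a * Voo y ^ p) with hf
  have hf1 : ContDiff ℝ 1 f :=
    (contDiff_const.mul (hV1.rpow_const_of_ne fun x => (hV x).ne')).neg
  obtain ⟨C, hC, hlim⟩ := exists_grad_limit_le (n := n) hn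
  have hstep : ∀ m : ℕ, 0 < 1 / ((m : ℝ) + 1) ∧ 1 / ((m : ℝ) + 1) ≤ 1 := fun m =>
    ⟨by positivity, (div_le_one (by positivity)).2 (by linarith [(Nat.cast_nonneg m : (0:ℝ) ≤ m)])⟩
  have hd : Differentiable ℝ Uoo := hU1.differentiable (by norm_num)
  have hpc : ∀ j, Continuous (pd j Uoo) := fun j =>
    (hU1.continuous_fderiv (by norm_num)).clm_apply continuous_const
  have hpq : ∀ (i j : Fin n) (t : ℝ), pd j (quot i t Uoo) = quot i t (pd j Uoo) := fun i j t =>
    funext fun x => pd_quot i j (hd x) (hd _)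
  have hkey : ∀ i, ContDiff ℝ 1 (pd i Uoo) := fun i => by
    refine (contDiff_one_of_limit (fun m : ℕ => quot i (1 / ((m : ℝ) + 1)) Uoo)
      (fun N => Eventually.of_forall fun m x _ => ?_)
      (fun N j => Eventually.of_forall fun m => ?_)
      (fun x => (tendstoUniformlyOn_quot hU1 i ⌈‖x‖⌉₊).tendsto_at
        (mem_closedBall_zero_iff.2 (Nat.le_ceil _)))
      (fun N j => ?_)).1
    · unfold quot
      fun_prop
    · rw [hpq]
      exact (continuous_quot (hpc j) _ _).continuousOn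
    rw [Metric.uniformCauchySeqOn_iff]
    intro ε hε
    set δ : ℝ := ε / (5 * C) with hδ
    have hδ0 : 0 < δ := by positivity
    obtain ⟨m₀, hm₀⟩ := eventually_atTop.1
      ((Metric.tendstoUniformlyOn_iff.1 (tendstoUniformlyOn_quot hU1 i (N + 6)) δ hδ0).and
        (Metric.tendstoUniformlyOn_iff.1 (tendstoUniformlyOn_quot hf1 i (N + 6)) δ hδ0))
    refine ⟨m₀, fun m hm l hl x hx => ?_⟩
    obtain ⟨gm, fm⟩ := hm₀ m hm
    obtain ⟨gl, fl⟩ := hm₀ l hl
    obtain ⟨tm0, tm1⟩ := hstep m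
    obtain ⟨tl0, tl1⟩ := hstep l
    set s : ℝ := 1 / ((m : ℝ) + 1)
    set t : ℝ := 1 / ((l : ℝ) + 1)
    have hat : ∀ᶠ k in atTop, ∀ y ∈ ball x 4, ∀ r : ℝ, 0 < r → r ≤ 1 →
        ContDiffAt ℝ 2 (U k) y ∧ ContDiffAt ℝ 2 (U k) (y + EuclideanSpace.single i r) := by
      refine (h.blow.smooth (N + 6)).mono fun k hk y hy r hr0 hr1 => ?_
      rw [mem_ball, dist_eq_norm] at hy
      rw [mem_closedBall_zero_iff] at hx
      have h1 : ‖y‖ < N + 4 := by linarith [norm_le_insert' y x]
      refine ⟨hk.1.contDiffAt (isOpen_ball.mem_nhds ?_), hk.1.contDiffAt (isOpen_ball.mem_nhds ?_)⟩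
        <;> rw [mem_ball_zero_iff] <;> push_cast
      · linarith
      · have : ‖EuclideanSpace.single i r‖ = r := by simp [abs_of_pos hr0]
        linarith [norm_add_le y (EuclideanSpace.single i r)]
    have hsm : ∀ {r : ℝ}, 0 < r → r ≤ 1 → ∀ᶠ k in atTop, ∀ y ∈ ball x 4,
        ContDiffAt ℝ 2 (quot i r (U k)) y := fun {r} h0 h1 => hat.mono fun k hk y hy => by
      exact (((hk y hy r h0 h1).2.comp y (contDiffAt_id.add contDiffAt_const)).sub
        (hk y hy r h0 h1).1).div_const r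
    have hb := hlim (fun k y => quot i s (U k) y - quot i t (U k) y)
      (fun y => quot i s Uoo y - quot i t Uoo y) (fun y => quot i s f y - quot i t f y) x
      (2 * δ) (2 * δ) (pd j (quot i s Uoo) x - pd j (quot i t Uoo) x) j
      (((hsm tm0 tm1).and (hsm tl0 tl1)).mono fun k hk y hy =>
        ((hk.1 y hy).sub (hk.2 y hy)).contDiffWithinAt)
      ((tendsto_quot_seq i tm0 tm1 hx (h.convU (N + 6))).sub
        (tendsto_quot_seq i tl0 tl1 hx (h.convU (N + 6)))) ?_ ?_ ?_ ?_
    · rw [Real.dist_eq]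
      refine hb.trans_lt ?_
      have e : C * (2 * δ + 2 * δ) = 4 * ε / 5 := by rw [hδ]; field_simp; ring
      linarith
    · refine ((tendsto_quot_seq i tm0 tm1 hx (h.tendsto_lap hp (N + 6))).sub
        (tendsto_quot_seq i tl0 tl1 hx (h.tendsto_lap hp (N + 6)))).congr ?_
      filter_upwards [hat, hsm tm0 tm1, hsm tl0 tl1] with k hk h1 h2 y hy
      have hy4 : y ∈ ball x 4 := closedBall_subset_ball (by norm_num) hy
      show quot i s (lap (U k)) y - quot i t (lap (U k)) y = _
      rw [lap_sub_of (h1 y hy4) (h2 y hy4), lap_quot i s (hk y hy4 s tm0 tm1).1 (hk y hy4 s tm0 tm1).2,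
        lap_quot i t (hk y hy4 t tl0 tl1).1 (hk y hy4 t tl0 tl1).2]
    · intro y hy
      have m1 := (norm_add_single_le i tm0 tm1 hx hy).1
      have a1 := gm y m1
      have a2 := gl y m1
      rw [Real.dist_eq, abs_lt] at a1 a2
      rw [abs_le]
      constructor <;> linarith
    · intro y hy
      have m1 := (norm_add_single_le i tm0 tm1 hx hy).1
      have a1 := fm y m1
      have a2 := fl y m1
      rw [Real.dist_eq, abs_lt] at a1 a2
      rw [abs_le]
      constructor <;> linarith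
    · have hc : ∀ {r : ℝ}, 0 < r → r ≤ 1 →
          Tendsto (fun k => quot i r (pd j (U k)) x) atTop (𝓝 (quot i r (pd j Uoo) x)) :=
        fun {r} h0 h1 => (tendsto_quot_seq i h0 h1 hx (hgU (N + 6) j)).tendsto_at
          (mem_closedBall_self (by norm_num))
      rw [hpq i j s, hpq i j t]
      refine ((hc tm0 tm1).sub (hc tl0 tl1)).congr' ?_
      filter_upwards [hat, hsm tm0 tm1, hsm tl0 tl1] with k hk h1 h2
      have hx4 : x ∈ ball x 4 := mem_ball_self (by norm_num)
      rw [pd_sub_of ((h1 x hx4).differentiableAt (by norm_num))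
        ((h2 x hx4).differentiableAt (by norm_num)),
        pd_quot i j ((hk x hx4 s tm0 tm1).1.differentiableAt (by norm_num))
          ((hk x hx4 s tm0 tm1).2.differentiableAt (by norm_num)),
        pd_quot i j ((hk x hx4 t tl0 tl1).1.differentiableAt (by norm_num))
          ((hk x hx4 t tl0 tl1).2.differentiableAt (by norm_num))]
  refine (contDiff_succ_iff_fderiv (n := 1)).2 ⟨hd, by simp, ?_⟩
  rw [show fderiv ℝ Uoo = fun x => ∑ i, pd i Uoo x • EuclideanSpace.proj (𝕜 := ℝ) i from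
    funext (fderiv_eq_sum Uoo)]
  exact ContDiff.sum fun i _ => (hkey i).smul contDiff_const

theorem tendsto_mul_fixed {K : Set (EuclideanSpace ℝ (Fin n))} (hK : IsCompact K)
    {F : ℕ → EuclideanSpace ℝ (Fin n) → ℝ} {G φ : EuclideanSpace ℝ (Fin n) → ℝ}
    (hφ : Continuous φ) (h : TendstoUniformlyOn F G atTop K) :
    TendstoUniformlyOn (fun k y => F k y * φ y) (fun y => G y * φ y) atTop K := by
  obtain ⟨B, hB⟩ := hK.exists_bound_of_continuousOn hφ.continuousOn
  rw [Metric.tendstoUniformlyOn_iff]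
  intro ε hε
  filter_upwards [Metric.tendstoUniformlyOn_iff.1 h (ε / (|B| + 1)) (by positivity)] with k hk y hy
  have h1 := hk y hy
  rw [Real.dist_eq] at h1
  rw [Real.dist_eq, ← sub_mul, abs_mul]
  have h2 : |φ y| ≤ |B| + 1 := by
    linarith [Real.norm_eq_abs (φ y), hB y hy, le_abs_self B]
  refine (mul_le_mul_of_nonneg_left h2 (abs_nonneg _)).trans_lt ?_
  rw [← lt_div_iff₀ (by positivity)]
  exact h1

/-- The limit solves the unweighted equation. -/
theorem Lim.lap_eq (hn : 3 ≤ n) (hp : 0 < p) (h : Lim n p q a b U V ca cb Uoo Voo)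
    (hU : ContDiff ℝ 2 Uoo) (x : EuclideanSpace ℝ (Fin n)) : lap Uoo x = -(a * Voo x ^ p) := by
  by_contra hne
  obtain ⟨e, he⟩ : ∃ e : EuclideanSpace ℝ (Fin n), ‖e‖ = 1 :=
    ⟨EuclideanSpace.single ⟨0, by omega⟩ 1, by simp⟩
  set z : EuclideanSpace ℝ (Fin n) := x - e with hz
  set U₀ : EuclideanSpace ℝ (Fin n) → ℝ := fun y => Uoo (z + y) with hU₀
  have hU₀2 : ContDiff ℝ 2 U₀ := hU.comp (contDiff_const.add contDiff_id)
  have hL₀ : ∀ y, lap U₀ y = lap Uoo (z + y) := fun y => by
    rw [hU₀, show (fun y => Uoo (z + y)) = fun y => Uoo (y - -z) from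
      funext fun y => by rw [sub_neg_eq_add, add_comm], lap_comp_sub, sub_neg_eq_add, add_comm]
  set g : EuclideanSpace ℝ (Fin n) → ℝ :=
    fun y => lap Uoo (z + y) - -(a * Voo (z + y) ^ p) with hg
  have hgc : Continuous g := ((continuous_lap hU).comp (continuous_const.add continuous_id)).sub
    (continuous_const.mul ((h.contV.comp (continuous_const.add continuous_id)).rpow_const
      fun _ => Or.inr hp.le)).neg
  have hge : g e ≠ 0 := by
    simp only [hg, hz, sub_add_cancel]
    exact sub_ne_zero.2 hne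
  obtain ⟨r, hr, hball⟩ := Metric.eventually_nhds_iff.1
    (((hgc.mul continuous_const).continuousAt (x := e)).eventually
      (lt_mem_nhds (mul_self_pos.2 hge : 0 < g e * g e)))
  set φ : ContDiffBump e := ⟨min r (1 / 2) / 2, min r (1 / 2), half_pos (lt_min hr (by norm_num)),
    half_lt_self (lt_min hr (by norm_num))⟩ with hφ
  set K : Set (EuclideanSpace ℝ (Fin n)) := closedBall e φ.rOut with hK
  have hKr : φ.rOut ≤ 1 / 2 := min_le_right _ _
  have hφ2 : ContDiff ℝ 2 (φ : EuclideanSpace ℝ (Fin n) → ℝ) := φ.contDiff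
  have hKz : ∀ y ∈ K, ‖y‖ ≤ 2 := fun y hy => by
    rw [hK, mem_closedBall, dist_eq_norm] at hy
    linarith [norm_le_insert' y e]
  have hs : tsupport (φ : EuclideanSpace ℝ (Fin n) → ℝ) ⊆ ({0}ᶜ : Set _) := fun y hy h0 => by
    rw [mem_singleton_iff] at h0
    subst h0
    rw [φ.tsupport_eq, mem_closedBall, dist_eq_norm, zero_sub, norm_neg, he] at hy
    linarith
  have hout : ∀ y ∉ K, φ y = 0 ∧ lap (φ : EuclideanSpace ℝ (Fin n) → ℝ) y = 0 := fun y hy => by
    have hy' : y ∉ tsupport (φ : EuclideanSpace ℝ (Fin n) → ℝ) := by rwa [φ.tsupport_eq]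
    exact ⟨image_eq_zero_of_notMem_tsupport hy', Finset.sum_eq_zero fun i _ =>
      pd_eq_zero_of_notMem i fun h => hy' (support_pd_subset _ i h)⟩
  have hrest : ∀ F : EuclideanSpace ℝ (Fin n) → ℝ,
      (∫ y, F y * lap (φ : EuclideanSpace ℝ (Fin n) → ℝ) y) =
        ∫ y in K, F y * lap (φ : EuclideanSpace ℝ (Fin n) → ℝ) y ∧
      (∫ y, F y * φ y) = ∫ y in K, F y * φ y := fun F =>
    ⟨(setIntegral_eq_integral_of_forall_compl_eq_zero fun y hy => by simp [(hout y hy).2]).symm,
      (setIntegral_eq_integral_of_forall_compl_eq_zero fun y hy => by simp [(hout y hy).1]).symm⟩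
  obtain ⟨N, hN⟩ : ∃ N : ℕ, ‖z‖ + 83 ≤ N := ⟨_, Nat.le_ceil _⟩
  have hmap : MapsTo (fun y => z + y) K (closedBall 0 (N : ℝ)) := fun y hy => by
    rw [mem_closedBall_zero_iff]
    linarith [norm_add_le z y, hKz y hy]
  have hKc : IsCompact K := isCompact_closedBall _ _
  have hUK : TendstoUniformlyOn (fun k y => U k (z + y)) U₀ atTop K :=
    ((h.convU N).comp fun y => z + y).mono hmap
  have hLK : TendstoUniformlyOn (fun k y => lap (U k) (z + y))
      (fun y => -(a * Voo (z + y) ^ p)) atTop K :=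
    ((h.tendsto_lap hp N).comp fun y => z + y).mono hmap
  have hev : ∀ᶠ k in atTop, ContinuousOn (fun y => U k (z + y)) K ∧
      ContinuousOn (fun y => lap (U k) (z + y)) K ∧
      (∫ y in K, U k (z + y) * lap (φ : EuclideanSpace ℝ (Fin n) → ℝ) y) =
        ∫ y in K, lap (U k) (z + y) * φ y := by
    refine (h.blow.smooth N).mono fun k hk => ?_
    obtain ⟨hW, hWy⟩ := cut_translate (n := n) (z := z) (N := N) (by linarith) hk.1
    have hy20 : ∀ y ∈ K, ‖y‖ < 20 := fun y hy => by linarith [hKz y hy]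
    refine ⟨(hW.continuous.continuousOn).congr fun y hy => ((hWy y (hy20 y hy)).1).symm,
      (continuous_lap hW).continuousOn.congr fun y hy => ((hWy y (hy20 y hy)).2).symm, ?_⟩
    have := Cmp.green hW.contDiffOn hφ2 φ.hasCompactSupport hs
    rw [(hrest _).1, (hrest _).2, setIntegral_congr_fun (μ := volume) hKc.measurableSet
      (fun y hy => congrArg (· * lap (φ : EuclideanSpace ℝ (Fin n) → ℝ) y) (hWy y (hy20 y hy)).1),
      setIntegral_congr_fun (μ := volume) hKc.measurableSet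
      (fun y hy => congrArg (· * φ y) (hWy y (hy20 y hy)).2)] at this
    exact this
  have l1 := tendsto_setIntegral_uniform hKc
    (hev.mono fun k hk => hk.1.mul (continuous_lap hφ2).continuousOn)
    (tendsto_mul_fixed hKc (continuous_lap hφ2) hUK)
  have l2 := tendsto_setIntegral_uniform hKc (hev.mono fun k hk => hk.2.1.mul φ.continuous.continuousOn)
    (tendsto_mul_fixed hKc φ.continuous hLK)
  have hlim := tendsto_nhds_unique (l1.congr' (hev.mono fun k hk => hk.2.2)) l2
  have hgr := Cmp.green hU₀2.contDiffOn hφ2 φ.hasCompactSupport hs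
  rw [(hrest _).1, (hrest _).2, setIntegral_congr_fun (μ := volume) hKc.measurableSet
    (fun y _ => congrArg (· * φ y) (hL₀ y))] at hgr
  rw [hgr] at hlim
  have i1 : IntegrableOn (fun y => lap Uoo (z + y) * φ y) K :=
    ((((continuous_lap hU).comp (continuous_const.add continuous_id)).mul
      φ.continuous).continuousOn).integrableOn_compact hKc
  have i2 : IntegrableOn (fun y => -(a * Voo (z + y) ^ p) * φ y) K :=
    (((continuous_const.mul ((h.contV.comp (continuous_const.add continuous_id)).rpow_const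
      fun _ => Or.inr hp.le)).neg.mul φ.continuous).continuousOn).integrableOn_compact hKc
  have hzero : (∫ y in K, g y * φ y) = 0 := by
    simp only [hg, sub_mul]
    rw [integral_sub i1 i2, hlim, sub_self]
  have hint : ∫ y, g y * g e * φ y = 0 := by
    rw [(hrest fun y => g y * g e).2]
    rw [show (fun y => g y * g e * φ y) = fun y => g e * (g y * φ y) from funext fun y => by ring,
      integral_const_mul, hzero, mul_zero]
  have hpos : 0 < ∫ y, g y * g e * φ y := by
    refine integral_pos_of_integrable_nonneg_nonzero (x := e)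
      ((hgc.mul continuous_const).mul φ.continuous)
      (((hgc.mul continuous_const).mul φ.continuous).integrable_of_hasCompactSupport
        φ.hasCompactSupport.mul_left) (fun y => ?_) ?_
    · by_cases hy : y ∈ ball e φ.rOut
      · exact mul_nonneg (le_of_lt (hball (lt_of_lt_of_le (mem_ball.1 hy) (min_le_left _ _))))
          φ.nonneg
      · simp [φ.zero_of_le_dist (not_lt.1 hy)]
    · rw [φ.one_of_mem_closedBall (mem_closedBall_self φ.rIn_pos.le), mul_one]
      exact mul_ne_zero hge hge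
  linarith

/-- A Liouville theorem for the unweighted system excludes blow-up. -/
theorem Blowup.false (hn : 3 ≤ n) (hp : 0 < p) (hq : 0 < q) (hpq : 1 < p * q)
    (liou : ∀ u v : EuclideanSpace ℝ (Fin n) → ℝ, ¬ Sol n 0 0 p q u v) (ha : 0 < a) (hb : 0 < b)
    (h : Blowup n p q a b U V ca cb) {s t : ℝ} (hs : 0 < s) (ht : 0 < t)
    (hnorm : ∀ᶠ k in atTop, U k 0 ^ s + V k 0 ^ t = 1) : False := by
  obtain ⟨φ, Uoo, Voo, hφ, hlim⟩ := h.exists_lim hn hp hq
  obtain ⟨_, hU0⟩ := hlim.bound_limit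
  obtain ⟨_, hV0⟩ := hlim.swap.bound_limit
  have h1 : Uoo 0 ^ s + Voo 0 ^ t = 1 := by
    refine tendsto_nhds_unique
      (((hlim.tendsto 0).rpow_const (Or.inr hs.le)).add ((hlim.swap.tendsto 0).rpow_const (Or.inr ht.le)))
      (tendsto_const_nhds.congr' ((hφ.tendsto_atTop.eventually hnorm).mono fun k hk => hk.symm))
  have hne : 0 < Uoo 0 + Voo 0 := by
    rcases (hU0 0).1.eq_or_lt with e | e
    · rcases (hV0 0).1.eq_or_lt with e' | e'
      · rw [← e, ← e', Real.zero_rpow hs.ne', Real.zero_rpow ht.ne'] at h1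
        norm_num at h1
      · linarith [(hU0 0).1]
    · linarith [(hV0 0).1]
  have hUp := hlim.pos hn hp ha hne
  have hVp := hlim.swap.pos hn hq hb (by rwa [add_comm])
  have hU2 := hlim.contDiff_two hn hp hq hVp
  have hV2 := hlim.swap.contDiff_two hn hq hp hUp
  set D : ℝ := p * q - 1 with hD
  have hD0 : 0 < D := by linarith
  set c₁ : ℝ := (a * b ^ p) ^ (-(1 / D)) with hc₁
  set c₂ : ℝ := b * c₁ ^ q with hc₂
  have hab : 0 < a * b ^ p := by positivity
  have hc₁0 : 0 < c₁ := Real.rpow_pos_of_pos hab _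
  have hc₂0 : 0 < c₂ := by positivity
  have hkey : a * c₂ ^ p = c₁ := by
    rw [hc₂, Real.mul_rpow hb.le (by positivity), ← mul_assoc, ← Real.rpow_mul hc₁0.le,
      show q * p = D + 1 by rw [hD]; ring, Real.rpow_add hc₁0, Real.rpow_one, ← mul_assoc,
      hc₁, ← Real.rpow_mul hab.le, show -(1 / D) * D = (-1 : ℝ) by field_simp, Real.rpow_neg_one,
      mul_inv_cancel₀ hab.ne', one_mul]
  refine liou (fun y => c₁⁻¹ * Uoo y) (fun y => c₂⁻¹ * Voo y)
    ⟨continuous_const.mul hlim.contU, continuous_const.mul hlim.contV,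
      fun y => mul_pos (inv_pos.2 hc₁0) (hUp y), fun y => mul_pos (inv_pos.2 hc₂0) (hVp y),
      (contDiff_const.mul hU2).contDiffOn, (contDiff_const.mul hV2).contDiffOn,
      fun y _ => ?_, fun y _ => ?_⟩
  · rw [lap_const_mul, hlim.lap_eq hn hp hU2, Real.rpow_zero, one_mul,
      Real.mul_rpow (inv_nonneg.2 hc₂0.le) (hVp y).le, Real.inv_rpow hc₂0.le]
    have : (c₂ ^ p)⁻¹ = c₁⁻¹ * a := by
      rw [← hkey]
      field_simp
    rw [this]
    ring
  · rw [lap_const_mul, hlim.swap.lap_eq hn hq hV2, Real.rpow_zero, one_mul,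
      Real.mul_rpow (inv_nonneg.2 hc₁0.le) (hUp y).le, Real.inv_rpow hc₁0.le]
    have : (c₁ ^ q)⁻¹ = c₂⁻¹ * b := by
      rw [hc₂]
      field_simp
    rw [this]
    ring

end Vale.Agent.P100.Doubling
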